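import Vale.Agent.P028L.Kernel
import Vale.Agent.P028X.Cls
import Vale.Agent.P028.DensityAux

/-! P028L module CROSS: pairs of two different scales. Unequal interval lengths give an imbalanced class, which
gains a power of the larger scale; the common resonance costs a linear amount. -/

namespace Vale.Agent.P028L

open Finset MeasureTheory
open Vale.Agent.P028
open Vale.Agent.P028.Overlap
open Vale.Agent.P028X (Small aX cls_boundX)

/-- The overlap of two rationals, normalised by `μ q μ r`: the coincidences off the common resonance. -/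
noncomputable def restK (γ : ℝ) (ψ : ℕ → ℝ) (A : ℤ) (B : ℕ) (A' : ℤ) (B' : ℕ) (q r : ℕ) : ℝ :=
  (∑ n ∈ (nWin γ (etaP ψ q r) q r).filter (fun n => D2 A B A' B' q r n ≠ 0),
    W2 A B A' B' q r n) / etaP ψ q r

/-- The ratio of a surviving pair on the common resonance. -/
def Surv (B B' q r : ℕ) : Prop :=
  vv q r * Nat.gcd B B' = B ∧ uu q r * Nat.gcd B B' = B'

open Classical in
/-- The common resonance. -/
noncomputable def zeroK (ψ : ℕ → ℝ) (B B' q r : ℕ) : ℝ :=
  if Surv B B' q r then Ph (uu q r * vv q r) * Ph (Nat.gcd q r) / etaP ψ q r else 0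

lemma etaP_pos {ψ : ℕ → ℝ} {q r : ℕ} (hq : 0 < q) (hr : 0 < r) (hψq : 0 < ψ q) (hψr : 0 < ψ r) :
    0 < etaP ψ q r := by
  have hu : (0 : ℝ) < uu q r := by exact_mod_cast uu_pos q r hq
  have hv : (0 : ℝ) < vv q r := by exact_mod_cast vv_pos q r hr
  unfold etaP
  positivity

lemma overlap_split (γ : ℝ) (ψ : ℕ → ℝ) (A A' : ℤ) (B B' q r : ℕ) (hcop : IsCoprime A (B : ℤ))
    (hcop' : IsCoprime A' (B' : ℤ)) (hB : 0 < B) (hB' : 0 < B') (hq : 0 < q) (hr : 0 < r)
    (hψq : 0 < ψ q) (hq1 : ψ q ≤ 1 / 2) (hψr : 0 < ψ r) (hr1 : ψ r ≤ 1 / 2) :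
    ∫ x in Set.Ico (0 : ℝ) 1, fq γ ψ A B q x * fq γ ψ A' B' r x
      ≤ 4 * (mu ψ q * mu ψ r * zeroK ψ B B' q r)
        + 4 * (mu ψ q * mu ψ r * restK γ ψ A B A' B' q r) := by
  classical
  refine (overlap2_le γ ψ A A' B B' q r hq hr hψq hq1 hψr hr1).trans ?_
  set η := etaP ψ q r with hη
  have hη0 : 0 < η := etaP_pos hq hr hψq hψr
  set N := nWin γ η q r
  have hz : ∑ n ∈ N.filter (fun n => D2 A B A' B' q r n = 0), W2 A B A' B' q r n
      ≤ zeroK ψ B B' q r * η := by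
    have hone : (N.filter (fun n => D2 A B A' B' q r n = 0)).card ≤ 1 := by
      refine card_le_one.2 fun a ha b hb => ?_
      have h1 := (mem_filter.1 ha).2
      have h2 := (mem_filter.1 hb).2
      simp only [D2] at h1 h2
      have : (B : ℤ) * B' * (a - b) = 0 := by linear_combination h1 - h2
      rcases mul_eq_zero.1 this with h | h
      · exfalso; have : (0 : ℤ) < (B : ℤ) * B' := by positivity
        omega
      · omega
    have hPh : 0 ≤ Ph (uu q r * vv q r) * Ph (Nat.gcd q r) :=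
      mul_nonneg (Ph_nonneg _) (Ph_nonneg _)
    have hterm : ∀ n ∈ N.filter (fun n => D2 A B A' B' q r n = 0),
        W2 A B A' B' q r n ≤ zeroK ψ B B' q r * η := by
      intro n hn
      by_cases hW : W2 A B A' B' q r n = 0
      · rw [hW]
        unfold zeroK
        split_ifs <;> positivity
      · rw [zeroK, if_pos (show Surv B B' q r from D2_zero_survivor hcop hcop' hB hq hr
          (mem_filter.1 hn).2 hW), ← hη, div_mul_cancel₀ _ hη0.ne']
        exact (W2_le A B A' B' hq hr n).trans (mul_le_mul_of_nonneg_left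
          (gPart_le_gcd A B A' B' hq n) (Ph_nonneg _))
    refine (sum_le_card_nsmul _ _ _ hterm).trans ?_
    rw [nsmul_eq_mul]
    refine mul_le_of_le_one_left ?_ (by exact_mod_cast hone)
    unfold zeroK
    split_ifs <;> positivity
  rw [← sum_filter_add_sum_filter_not N (fun n => D2 A B A' B' q r n = 0), restK, ← hη]
  rw [show 4 * mu ψ q * mu ψ r / η = 4 * (mu ψ q * mu ψ r) / η by ring, div_mul_eq_mul_div,
    div_le_iff₀ hη0, add_mul]
  have hμ : 0 ≤ 4 * (mu ψ q * mu ψ r) := by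
    have := mul_nonneg (th_nonneg q) hψq.le
    have := mul_nonneg (th_nonneg r) hψr.le
    unfold mu; positivity
  rw [mul_add]
  refine add_le_add ((mul_le_mul_of_nonneg_left hz hμ).trans_eq (by ring)) (le_of_eq ?_)
  field_simp
  rfl

/-- Pairs of two scales with unequal interval lengths or with a large window. -/
theorem cross_rest (κ : ℝ) (hκ : 0 < κ) (hκ1 : κ ≤ 1) :
    ∃ C T0 : ℝ, 0 ≤ C ∧ ∀ (γ : ℝ) (ψ : ℕ → ℝ) (A A' : ℤ) (B B' : ℕ) (V W : Finset ℕ) (T : ℝ),
      T0 ≤ T → (∀ q, 0 ≤ ψ q) →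
      (∀ q ∈ V ∪ W, 0 < q ∧ Real.exp (-(2 * T)) ≤ ψ q ∧ ψ q ≤ 1 / 2) →
      (B : ℝ) ≤ Real.exp (T / 2) → (B' : ℝ) ≤ Real.exp (T / 2) →
      |(B : ℝ) * γ - A| ≤ 1 → |(B' : ℝ) * γ - A'| ≤ 1 →
      (∀ q ∈ V, ∀ r ∈ W, κ * T ≤ |Real.log ((vv q r : ℝ) * ψ q) - Real.log ((uu q r : ℝ) * ψ r)| ∨
        Real.exp (κ * T) ≤ etaP ψ q r) →
      pairSum (mu ψ) (restK γ ψ A B A' B') V W
        ≤ C * (msum (mu ψ) V * msum (mu ψ) W)
          + C * Real.exp (-(κ / 10) * T) * (msum (mu ψ) V * msum (mu ψ) W) ^ aX (min (1 / 100000) (κ / 100)) := by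
  classical
  set ε := min (1 / 100000) (κ / 100) with hεdef
  have hε : Small ε := ⟨lt_min (by norm_num) (by positivity), min_le_left _ _⟩
  have hεκ : ε ≤ κ / 100 := min_le_right _ _
  set γ0 := κ / 20 with hγ0
  have hγ00 : 0 < γ0 := by positivity
  obtain ⟨Cb, hCb, hbig⟩ := sum_W2_big (4 / γ0 + 4) (by linarith [div_pos (by norm_num : (0:ℝ) < 4) hγ00])
  obtain ⟨Cp, hCp⟩ := Ph_pow_le_rpow 1 (κ / 200) (by positivity)
  obtain ⟨Cc, hCc, hcls⟩ := cls_boundX hε
  have hCp1 : 1 ≤ Cp := by simpa [Ph] using hCp 1 one_pos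
  refine ⟨Cb + 3 * Cp ^ 2 * 24 * Cc * 121 * (2 / (κ / 11) ^ 2), max 1 (2 / γ0), by positivity,
    fun γ ψ A A' B B' V W T hT hψ hmem hB hB' hA hA' hsep => ?_⟩
  have hT1 : 1 ≤ T := (le_max_left _ _).trans hT
  have hTγ : 2 ≤ γ0 * T := by
    have := (le_max_right _ _).trans hT
    rwa [div_le_iff₀ hγ00, mul_comm] at this
  have hμ := mu_nonneg' hψ
  set a := aX ε with ha
  set P := msum (mu ψ) V * msum (mu ψ) W with hP
  have hP0 : 0 ≤ P := mul_nonneg (sum_nonneg fun q _ => hμ q) (sum_nonneg fun q _ => hμ q)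
  set E := Real.exp ((γ0 + 4 * ε - κ / 3 + κ / 20) * T) with hE
  -- classes
  set x1 : ℕ → ℕ → ℝ := fun q r => (vv q r : ℝ) * ψ q with hx1
  set x2 : ℕ → ℕ → ℝ := fun q r => (uu q r : ℝ) * ψ r with hx2
  set sm := (V ×ˢ W).filter (fun z => ¬ Real.exp (γ0 * T) ≤ etaP ψ z.1 z.2) with hsm
  set lab : ℕ × ℕ → ℤ × ℤ := fun z =>
    (⌈Real.logb 2 (x1 z.1 z.2)⌉, ⌈Real.logb 2 (x2 z.1 z.2)⌉) with hlab
  set L := sm.image lab with hL
  set yv : ℤ → ℝ := fun l => (2 : ℝ) ^ (l : ℝ) with hyv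
  have hy0 : ∀ l, 0 < yv l := fun l => by simp only [hyv]; positivity
  have hfacts : ∀ z ∈ V ×ˢ W,
      (0 < x1 z.1 z.2 ∧ 0 < x2 z.1 z.2) ∧
      (Real.exp (-(2 * T)) ≤ x1 z.1 z.2 ∧ Real.exp (-(2 * T)) ≤ x2 z.1 z.2) ∧
      etaP ψ z.1 z.2 = x1 z.1 z.2 + x2 z.1 z.2 ∧
      ((vv z.1 z.2 : ℝ) ≤ etaP ψ z.1 z.2 * Real.exp (2 * T) ∧
        (uu z.1 z.2 : ℝ) ≤ etaP ψ z.1 z.2 * Real.exp (2 * T)) := by
    intro z hz
    obtain ⟨hq, hr⟩ := mem_product.1 hz
    obtain ⟨hq0, hql, -⟩ := hmem z.1 (mem_union_left _ hq)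
    obtain ⟨hr0, hrl, -⟩ := hmem z.2 (mem_union_right _ hr)
    have hu : (1 : ℝ) ≤ uu z.1 z.2 := by exact_mod_cast uu_pos z.1 z.2 hq0
    have hv : (1 : ℝ) ≤ vv z.1 z.2 := by exact_mod_cast vv_pos z.1 z.2 hr0
    have he := Real.exp_pos (-(2 * T))
    have h1 : Real.exp (-(2 * T)) ≤ x1 z.1 z.2 := hql.trans (le_mul_of_one_le_left (hψ _) hv)
    have h2 : Real.exp (-(2 * T)) ≤ x2 z.1 z.2 := hrl.trans (le_mul_of_one_le_left (hψ _) hu)
    have hv' := mul_le_mul_of_nonneg_left hql (le_trans zero_le_one hv)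
    have hu' := mul_le_mul_of_nonneg_left hrl (le_trans zero_le_one hu)
    refine ⟨⟨by linarith, by linarith⟩, ⟨h1, h2⟩, rfl, ?_, ?_⟩
    · rw [← div_le_iff₀ (Real.exp_pos _), div_eq_mul_inv, ← Real.exp_neg]
      unfold etaP
      simp only [hx2] at h2
      linarith
    · rw [← div_le_iff₀ (Real.exp_pos _), div_eq_mul_inv, ← Real.exp_neg]
      unfold etaP
      simp only [hx1] at h1
      linarith
  have hceil : ∀ x : ℝ, 0 < x → yv ⌈Real.logb 2 x⌉ / 2 < x ∧ x ≤ yv ⌈Real.logb 2 x⌉ := fun x hx => by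
    constructor
    · have h1 := Int.ceil_lt_add_one (Real.logb 2 x)
      have h2 : (2 : ℝ) ^ ((⌈Real.logb 2 x⌉ : ℝ) - 1) < x :=
        (Real.lt_logb_iff_rpow_lt one_lt_two hx).1 (by linarith)
      rwa [Real.rpow_sub two_pos, Real.rpow_one] at h2
    · exact (Real.logb_le_iff_le_rpow one_lt_two hx).1 (Int.le_ceil _)
  have hD2 : ∀ z ∈ V ×ˢ W, ∀ n ∈ nWin γ (etaP ψ z.1 z.2) z.1 z.2,
      |(D2 A B A' B' z.1 z.2 n : ℝ)| ≤ 3 * Real.exp (3 * T) * etaP ψ z.1 z.2 := by
    intro z hz n hn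
    obtain ⟨⟨p1, p2⟩, -, he, hv, hu⟩ := hfacts z hz
    set η := etaP ψ z.1 z.2
    have hη0 : 0 ≤ η := by linarith
    have hn' : |(n : ℝ) + γ * (hh z.1 z.2 : ℝ)| ≤ η := ((mem_nWin γ η _ _ n).1 hn).le
    refine (abs_D2_le γ A A' B B' z.1 z.2 n).trans ?_
    have e3 : Real.exp (T / 2) * Real.exp (T / 2) ≤ Real.exp (3 * T) := by
      rw [← Real.exp_add]; exact Real.exp_le_exp.2 (by linarith)
    have e4 : Real.exp (T / 2) * (η * Real.exp (2 * T)) ≤ Real.exp (3 * T) * η := by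
      rw [mul_left_comm, mul_comm η, ← Real.exp_add]
      exact mul_le_mul_of_nonneg_right (Real.exp_le_exp.2 (by linarith)) hη0
    have a1 : (B : ℝ) * B' * |(n : ℝ) + γ * (hh z.1 z.2 : ℝ)| ≤ Real.exp (3 * T) * η :=
      mul_le_mul ((mul_le_mul hB hB' (Nat.cast_nonneg _) (Real.exp_pos _).le).trans e3) hn'
        (abs_nonneg _) (Real.exp_pos _).le
    have a2 : |(B : ℝ) * γ - A| * B' * (vv z.1 z.2 : ℝ) ≤ Real.exp (3 * T) * η := by
      refine le_trans ?_ e4
      refine mul_le_mul ?_ hv (Nat.cast_nonneg _) (Real.exp_pos _).le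
      exact (mul_le_of_le_one_left (Nat.cast_nonneg _) hA).trans hB'
    have a3 : |(B' : ℝ) * γ - A'| * B * (uu z.1 z.2 : ℝ) ≤ Real.exp (3 * T) * η := by
      refine le_trans ?_ e4
      refine mul_le_mul ?_ hu (Nat.cast_nonneg _) (Real.exp_pos _).le
      exact (mul_le_of_le_one_left (Nat.cast_nonneg _) hA').trans hB
    linarith
  have hbigp : ∀ z ∈ V ×ˢ W, Real.exp (γ0 * T) ≤ etaP ψ z.1 z.2 →
      restK γ ψ A B A' B' z.1 z.2 ≤ Cb := by
    intro z hz hη
    obtain ⟨⟨p1, p2⟩, -, he, hv, hu⟩ := hfacts z hz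
    obtain ⟨hq, hr⟩ := mem_product.1 hz
    set η := etaP ψ z.1 z.2 with hηd
    have hη1 : 1 ≤ η := (Real.one_le_exp (by positivity)).trans hη
    have hη0 : 0 < η := by linarith
    have hη3 : 3 ≤ η := le_trans (by linarith [Real.add_one_le_exp (γ0 * T)]) hη
    have hpow : Real.exp (4 * T) ≤ η ^ (4 / γ0) := by
      refine le_trans (le_of_eq ?_) (Real.rpow_le_rpow (Real.exp_pos _).le hη (by positivity))
      rw [← Real.exp_mul]
      congr 1
      field_simp
    rw [restK, div_le_iff₀ hη0, ← hηd]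
    refine hbig γ η A A' B B' z.1 z.2 (hmem _ (mem_union_left _ hq)).1
      (hmem _ (mem_union_right _ hr)).1 hη1 ?_ fun n hn => (hD2 z hz n hn).trans ?_
    · push_cast
      calc (uu z.1 z.2 : ℝ) * vv z.1 z.2 ≤ (η * Real.exp (2 * T)) * (η * Real.exp (2 * T)) :=
            mul_le_mul hu hv (Nat.cast_nonneg _) (by positivity)
        _ = η ^ (2 : ℝ) * Real.exp (4 * T) := by
            rw [Real.rpow_two, show 4 * T = 2 * T + 2 * T by ring, Real.exp_add]; ring
        _ ≤ η ^ (2 : ℝ) * η ^ (4 / γ0) := mul_le_mul_of_nonneg_left hpow (by positivity)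
        _ ≤ _ := by
            rw [← Real.rpow_add hη0]
            exact Real.rpow_le_rpow_of_exponent_le hη1 (by linarith)
    · calc 3 * Real.exp (3 * T) * η ≤ η * η ^ (4 / γ0) * η := by
            refine mul_le_mul_of_nonneg_right (mul_le_mul hη3 (le_trans (Real.exp_le_exp.2
              (by linarith)) hpow) (Real.exp_pos _).le hη0.le) hη0.le
        _ = η ^ (4 / γ0 + 2) := by
            rw [Real.rpow_add hη0, Real.rpow_two]; ring
        _ ≤ _ := Real.rpow_le_rpow_of_exponent_le hη1 (by linarith)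
  set Φ := 3 * Cp ^ 2 * Real.exp (κ / 20 * T) with hΦ
  have hΦ0 : 0 ≤ Φ := by positivity
  have hsmall : ∀ z ∈ sm, restK γ ψ A B A' B' z.1 z.2 ≤ Φ * (2 + 1 / etaP ψ z.1 z.2) := by
    intro z hz
    obtain ⟨hz', hη⟩ := mem_filter.1 hz
    obtain ⟨⟨p1, p2⟩, -, he, hv, hu⟩ := hfacts z hz'
    obtain ⟨hq, hr⟩ := mem_product.1 hz'
    have hq0 := (hmem _ (mem_union_left _ hq)).1
    have hr0 := (hmem _ (mem_union_right _ hr)).1
    set η := etaP ψ z.1 z.2 with hηd
    have hη0 : 0 < η := by linarith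
    have hηT : η ≤ Real.exp T := (not_le.1 hη).le.trans (Real.exp_le_exp.2
      (mul_le_of_le_one_left (by linarith) (by linarith)))
    set N := (nWin γ η z.1 z.2).filter (fun n => D2 A B A' B' z.1 z.2 n ≠ 0) with hN
    have hNc : (N.card : ℝ) ≤ 2 * η + 1 := by
      have h := card_class γ η z.1 z.2 1 0 1 hη0 one_pos isCoprime_one_left
      simp at h
      have h2 : (N.card : ℝ) ≤ (nWin γ η z.1 z.2).card := by
        exact_mod_cast Finset.card_filter_le _ _
      linarith [(abs_le.1 h).2]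
    have hW : ∀ n ∈ N, W2 A B A' B' z.1 z.2 n ≤ Φ := by
      intro n hn
      obtain ⟨hnw, hne⟩ := mem_filter.1 hn
      refine (W2_le A B A' B' hq0 hr0 n).trans ((mul_le_mul_of_nonneg_left
        (gPart_le_D2 A B A' B' hne) (Ph_nonneg _)).trans ?_)
      have b1 := hCp _ (uu_mul_vv_pos z.1 z.2 hq0 hr0)
      have b2 := hCp _ (Int.natAbs_pos.2 hne)
      rw [pow_one] at b1 b2
      refine (mul_le_mul b1 b2 (Ph_nonneg _) (by positivity)).trans ?_
      rw [mul_mul_mul_comm, ← sq, ← Real.mul_rpow (Nat.cast_nonneg _) (Nat.cast_nonneg _), hΦ,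
        mul_comm (3 : ℝ) (Cp ^ 2), mul_assoc]
      refine mul_le_mul_of_nonneg_left ?_ (sq_nonneg _)
      have hsz : ((uu z.1 z.2 * vv z.1 z.2 : ℕ) : ℝ) * ((D2 A B A' B' z.1 z.2 n).natAbs : ℕ)
          ≤ 3 * Real.exp (10 * T) := by
        rw [Nat.cast_natAbs, Int.cast_abs]
        push_cast
        calc (uu z.1 z.2 : ℝ) * vv z.1 z.2 * |(D2 A B A' B' z.1 z.2 n : ℝ)|
            ≤ (Real.exp T * Real.exp (2 * T)) * (Real.exp T * Real.exp (2 * T))
              * (3 * Real.exp (3 * T) * Real.exp T) := by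
              refine mul_le_mul (mul_le_mul (hu.trans ?_) (hv.trans ?_) (Nat.cast_nonneg _)
                (by positivity)) ((hD2 z hz' n hnw).trans ?_) (abs_nonneg _) (by positivity)
              all_goals gcongr
          _ = _ := by
              simp only [← Real.exp_add]
              rw [mul_assoc 3 _ _, ← Real.exp_add, mul_left_comm, ← Real.exp_add]
              congr 2
              ring
      refine (Real.rpow_le_rpow (by positivity) hsz (by positivity)).trans ?_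
      rw [Real.mul_rpow (by norm_num) (Real.exp_pos _).le, ← Real.exp_mul]
      refine mul_le_mul (Real.rpow_le_self_of_one_le (by norm_num) (by linarith))
        (le_of_eq (by congr 1; ring)) (Real.exp_pos _).le (by norm_num)
    rw [restK, ← hηd, div_le_iff₀ hη0]
    refine (sum_le_card_nsmul _ _ _ hW).trans ?_
    rw [nsmul_eq_mul]
    refine (mul_le_mul_of_nonneg_right hNc hΦ0).trans (le_of_eq ?_)
    field_simp
  set Kc := fun l : ℤ × ℤ => Φ * (2 + 2 / max (yv l.1) (yv l.2)) with hKc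
  have hKc0 : ∀ l, 0 ≤ Kc l := fun l => by
    have : 0 < max (yv l.1) (yv l.2) := lt_max_of_lt_left (hy0 l.1)
    simp only [hKc]; positivity
  have hpt : ∀ q ∈ V, ∀ r ∈ W, restK γ ψ A B A' B' q r
      ≤ Cb + ∑ l ∈ L, Kc l * clsI ψ (yv l.1) (yv l.2) q r := by
    intro q hq r hr
    have hz : (q, r) ∈ V ×ˢ W := mem_product.2 ⟨hq, hr⟩
    have hsum : 0 ≤ ∑ l ∈ L, Kc l * clsI ψ (yv l.1) (yv l.2) q r :=
      sum_nonneg fun l _ => mul_nonneg (hKc0 l) (cls_mem ψ _ _ q r).1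
    by_cases hη : Real.exp (γ0 * T) ≤ etaP ψ q r
    · linarith [hbigp (q, r) hz hη]
    have hzs : (q, r) ∈ sm := mem_filter.2 ⟨hz, hη⟩
    obtain ⟨⟨p1, p2⟩, -, he, -⟩ := hfacts (q, r) hz
    set l := lab (q, r) with hl
    obtain ⟨c1, c2⟩ := hceil _ p1
    obtain ⟨d1, d2⟩ := hceil _ p2
    have hin : clsI ψ (yv l.1) (yv l.2) q r = 1 := if_pos ⟨⟨c1, c2⟩, ⟨d1, d2⟩⟩
    have h1 := single_le_sum (f := fun l => Kc l * clsI ψ (yv l.1) (yv l.2) q r)
      (fun l _ => mul_nonneg (hKc0 l) (cls_mem ψ _ _ q r).1) (mem_image_of_mem lab hzs)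
    simp only [← hl, hin, mul_one] at h1
    refine le_trans ((hsmall (q, r) hzs).trans ?_) (h1.trans (le_add_of_nonneg_left hCb))
    refine mul_le_mul_of_nonneg_left (add_le_add le_rfl ?_) hΦ0
    have hη0 : 0 < etaP ψ q r := by simp only at he; rw [he]; linarith
    rw [div_le_div_iff₀ hη0 (lt_max_of_lt_left (hy0 _)), one_mul]
    simp only at he c1 d1
    rw [he]
    exact max_le (by simp only [hl, hlab]; linarith) (by simp only [hl, hlab]; linarith)
  have hcl : ∀ l ∈ L, Kc l * pairSum (mu ψ) (clsI ψ (yv l.1) (yv l.2)) V W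
      ≤ 3 * Cp ^ 2 * 24 * Cc * (E * P ^ a) := by
    intro l hl
    obtain ⟨z, hz, rfl⟩ := mem_image.1 hl
    obtain ⟨hz', hη⟩ := mem_filter.1 hz
    obtain ⟨⟨p1, p2⟩, ⟨l1, l2⟩, he, -⟩ := hfacts z hz'
    obtain ⟨hq, hr⟩ := mem_product.1 hz'
    obtain ⟨c1, c2⟩ := hceil _ p1
    obtain ⟨d1, d2⟩ := hceil _ p2
    set y1 := yv (lab z).1 with hy1d
    set y2 := yv (lab z).2 with hy2d
    have hy1 : 0 < y1 := hy0 _
    have hy2 : 0 < y2 := hy0 _
    have hηle : etaP ψ z.1 z.2 ≤ Real.exp (γ0 * T) := (not_le.1 hη).le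
    have hgap : κ * T ≤ |Real.log (x1 z.1 z.2) - Real.log (x2 z.1 z.2)| := by
      rcases hsep z.1 hq z.2 hr with h | h
      · exact h
      · refine absurd (le_trans (Real.exp_le_exp.2 ?_) h) hη
        exact mul_le_mul_of_nonneg_right (by linarith) (by linarith)
    have hsym : ∀ a b x y : ℝ, 0 < x → 0 < y → x ≤ a → y ≤ b → a / 2 < x → b / 2 < y →
        κ * T ≤ Real.log x - Real.log y → Real.exp (-(2 * T)) ≤ x → x + y ≤ Real.exp (γ0 * T) →
        (2 + 2 / max a b) * (a * b) ^ (1 / 2 - ε)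
          ≤ 24 * Real.exp ((γ0 + 4 * ε - κ / 3) * T) := by
      intro a b x y hx hy hxa hyb hax hby hxy hxl hsum
      have ha0 : 0 < a := lt_of_lt_of_le hx hxa
      have hb0 : 0 < b := lt_of_lt_of_le hy hyb
      set m := max a b with hm
      have hm0 : 0 < m := lt_max_of_lt_left ha0
      have hy' : y ≤ x * Real.exp (-(κ * T)) := by
        rw [← Real.log_le_log_iff hy (by positivity), Real.log_mul hx.ne' (Real.exp_pos _).ne',
          Real.log_exp]
        linarith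
      have hb' : b ≤ 2 * (a * Real.exp (-(κ * T))) := by
        have := mul_le_mul_of_nonneg_right hxa (Real.exp_pos (-(κ * T))).le
        linarith
      have hab : a * b ≤ m ^ (2 : ℝ) * (2 * Real.exp (-(κ * T))) := by
        rw [Real.rpow_two, sq]
        calc a * b ≤ a * (2 * (a * Real.exp (-(κ * T)))) := mul_le_mul_of_nonneg_left hb' ha0.le
          _ ≤ _ := by
            have := mul_le_mul (le_max_left a b) (le_max_left a b) ha0.le hm0.le
            have := mul_le_mul_of_nonneg_right this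
              (show 0 ≤ 2 * Real.exp (-(κ * T)) by positivity)
            linarith
      have hex : 0 ≤ 1 / 2 - ε := by linarith [hε.2]
      have h1 : (a * b) ^ (1 / 2 - ε) ≤ m * m ^ (-(2 * ε)) * (2 * Real.exp (-(κ / 3) * T)) := by
        refine (Real.rpow_le_rpow (by positivity) hab hex).trans ?_
        rw [Real.mul_rpow (by positivity) (by positivity), ← Real.rpow_mul hm0.le,
          show (2 : ℝ) * (1 / 2 - ε) = 1 + -(2 * ε) by ring, Real.rpow_add hm0, Real.rpow_one]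
        refine mul_le_mul_of_nonneg_left ?_ (by positivity)
        rw [Real.mul_rpow (by norm_num) (Real.exp_pos _).le, ← Real.exp_mul]
        refine mul_le_mul (Real.rpow_le_self_of_one_le (by norm_num) (by linarith [hε.1]))
          (Real.exp_le_exp.2 ?_) (Real.exp_pos _).le (by norm_num)
        have h13 : (1 / 3 : ℝ) ≤ 1 / 2 - ε := by linarith [hε.2]
        have := mul_le_mul_of_nonneg_left h13 (show 0 ≤ κ * T by positivity)
        linarith
      have h2 : m ^ (-(2 * ε)) ≤ Real.exp (4 * ε * T) := by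
        refine (Real.rpow_le_rpow_of_nonpos (Real.exp_pos _)
          (hxl.trans (hxa.trans (le_max_left _ _))) (by linarith [hε.1])).trans (le_of_eq ?_)
        rw [← Real.exp_mul]; congr 1; ring
      have h3 : (2 + 2 / m) * m ≤ 6 * Real.exp (γ0 * T) := by
        have : m ≤ 2 * Real.exp (γ0 * T) := max_le (by linarith) (by linarith)
        have := Real.one_le_exp (show 0 ≤ γ0 * T by positivity)
        rw [add_mul, div_mul_cancel₀ _ hm0.ne']
        linarith
      calc (2 + 2 / m) * (a * b) ^ (1 / 2 - ε)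
          ≤ (2 + 2 / m) * (m * m ^ (-(2 * ε)) * (2 * Real.exp (-(κ / 3) * T))) :=
            mul_le_mul_of_nonneg_left h1 (by positivity)
        _ = (2 + 2 / m) * m * (m ^ (-(2 * ε)) * (2 * Real.exp (-(κ / 3) * T))) := by ring
        _ ≤ 6 * Real.exp (γ0 * T) * (Real.exp (4 * ε * T) * (2 * Real.exp (-(κ / 3) * T))) :=
            mul_le_mul h3 (mul_le_mul_of_nonneg_right h2 (by positivity)) (by positivity)
              (by positivity)
        _ = 12 * (Real.exp (γ0 * T) * (Real.exp (4 * ε * T) * Real.exp (-(κ / 3) * T))) := by ring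
        _ ≤ _ := by
            rw [← Real.exp_add, ← Real.exp_add,
              show γ0 * T + (4 * ε * T + -(κ / 3) * T) = (γ0 + 4 * ε - κ / 3) * T by ring]
            linarith [Real.exp_pos ((γ0 + 4 * ε - κ / 3) * T)]
    have hcore : (2 + 2 / max y1 y2) * (y1 * y2) ^ (1 / 2 - ε)
        ≤ 24 * Real.exp ((γ0 + 4 * ε - κ / 3) * T) := by
      rcases le_total (Real.log (x2 z.1 z.2)) (Real.log (x1 z.1 z.2)) with h | h
      · rw [abs_of_nonneg (by linarith)] at hgap
        exact hsym y1 y2 _ _ p1 p2 c2 d2 c1 d1 hgap l1 (he ▸ hηle)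
      · rw [abs_of_nonpos (by linarith), neg_sub] at hgap
        rw [max_comm, mul_comm y1 y2]
        exact hsym y2 y1 _ _ p2 p1 d2 c2 d1 c1 hgap l2 (by linarith)
    have h := hcls ψ (V ∪ W) V W y1 y2 hψ
      (fun q hq => ⟨(hmem q hq).1, lt_of_lt_of_le (Real.exp_pos _) (hmem q hq).2.1⟩)
      subset_union_left subset_union_right hy1 hy2
    calc Kc (lab z) * pairSum (mu ψ) (clsI ψ y1 y2) V W
        ≤ Kc (lab z) * (Cc * (y1 * y2) ^ (1 / 2 - ε) * P ^ a) :=
          mul_le_mul_of_nonneg_left h (hKc0 _)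
      _ = Φ * Cc * ((2 + 2 / max y1 y2) * (y1 * y2) ^ (1 / 2 - ε)) * P ^ a := by
          simp only [hKc, ← hy1d, ← hy2d]; ring
      _ ≤ Φ * Cc * (24 * Real.exp ((γ0 + 4 * ε - κ / 3) * T)) * P ^ a := by gcongr
      _ = _ := by
          rw [hΦ, hE, show (γ0 + 4 * ε - κ / 3 + κ / 20) * T
            = κ / 20 * T + (γ0 + 4 * ε - κ / 3) * T by ring, Real.exp_add]
          ring
  have hLc : (L.card : ℝ) ≤ 121 * T ^ 2 := by
    set n0 := ⌈3 * T⌉₊ + 1 with hn0
    have hsub : L ⊆ Finset.Icc (-(n0 : ℤ)) n0 ×ˢ Finset.Icc (-(n0 : ℤ)) n0 := by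
      intro l hl
      obtain ⟨z, hz, rfl⟩ := mem_image.1 hl
      obtain ⟨hz', hη⟩ := mem_filter.1 hz
      obtain ⟨⟨p1, p2⟩, ⟨l1, l2⟩, he, -⟩ := hfacts z hz'
      have hγT : γ0 * T ≤ T := mul_le_of_le_one_left (by linarith) (by linarith)
      have hl2 : (2 / 3 : ℝ) ≤ Real.log 2 := by linarith [Real.log_two_gt_d9]
      have key : ∀ x : ℝ, 0 < x → Real.exp (-(2 * T)) ≤ x → x ≤ Real.exp (γ0 * T) →
          ⌈Real.logb 2 x⌉ ∈ Finset.Icc (-(n0 : ℤ)) n0 := by
        intro x hx hlo hhi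
        have g1 := Real.log_le_log (Real.exp_pos _) hlo
        have g2 := Real.log_le_log hx hhi
        rw [Real.log_exp] at g1 g2
        have hb : -(3 * T) ≤ Real.logb 2 x ∧ Real.logb 2 x ≤ 3 * T := by
          unfold Real.logb
          rw [le_div_iff₀ (by linarith), div_le_iff₀ (by linarith)]
          have h23 := mul_le_mul_of_nonneg_left hl2 (show 0 ≤ 3 * T by linarith)
          constructor <;> linarith
        have hc1 := Int.le_ceil (Real.logb 2 x)
        have hc2 := Int.ceil_lt_add_one (Real.logb 2 x)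
        have hn := Nat.le_ceil (3 * T)
        refine Finset.mem_Icc.2 ⟨?_, ?_⟩
        · have : -((n0 : ℤ) : ℝ) ≤ (⌈Real.logb 2 x⌉ : ℝ) := by
            rw [hn0]; push_cast; linarith [hb.1]
          exact_mod_cast this
        · have : (⌈Real.logb 2 x⌉ : ℝ) ≤ ((n0 : ℤ) : ℝ) := by
            rw [hn0]; push_cast; linarith [hb.2]
          exact_mod_cast this
      have hh' := (not_le.1 hη).le
      rw [he] at hh'
      exact mem_product.2 ⟨key _ p1 l1 (by linarith), key _ p2 l2 (by linarith)⟩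
    have h1 : L.card ≤ (2 * n0 + 1) * (2 * n0 + 1) := by
      refine (card_le_card hsub).trans (le_of_eq ?_)
      rw [card_product, Int.card_Icc]
      have : ((n0 : ℤ) + 1 - -(n0 : ℤ)).toNat = 2 * n0 + 1 := by omega
      rw [this]
    have h2 : ((2 * n0 + 1 : ℕ) : ℝ) ≤ 11 * T := by
      rw [hn0]
      push_cast
      have := (Nat.ceil_lt_add_one (show 0 ≤ 3 * T by linarith))
      linarith
    calc (L.card : ℝ) ≤ ((2 * n0 + 1 : ℕ) : ℝ) * ((2 * n0 + 1 : ℕ) : ℝ) := by exact_mod_cast h1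
      _ ≤ (11 * T) * (11 * T) := mul_le_mul h2 h2 (Nat.cast_nonneg _) (by linarith)
      _ = _ := by ring
  have hTE : T ^ 2 * E ≤ 2 / (κ / 11) ^ 2 * Real.exp (-(κ / 10) * T) := by
    have h0 : 0 ≤ κ / 11 * T := by positivity
    have h1 := Real.quadratic_le_exp_of_nonneg h0
    have h2 : T ^ 2 ≤ 2 / (κ / 11) ^ 2 * Real.exp (κ / 11 * T) := by
      rw [div_mul_eq_mul_div, le_div_iff₀ (by positivity)]
      nlinarith
    refine (mul_le_mul_of_nonneg_right h2 (Real.exp_pos _).le).trans ?_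
    rw [mul_assoc, ← Real.exp_add]
    refine mul_le_mul_of_nonneg_left (Real.exp_le_exp.2 ?_) (by positivity)
    rw [← add_mul]
    exact mul_le_mul_of_nonneg_right (by linarith) (by linarith)
  calc pairSum (mu ψ) (restK γ ψ A B A' B') V W
      ≤ pairSum (mu ψ) (fun q r => Cb + ∑ l ∈ L, Kc l * clsI ψ (yv l.1) (yv l.2) q r) V W :=
        pairSum_mono hμ hpt
    _ = Cb * P + ∑ l ∈ L, Kc l * pairSum (mu ψ) (clsI ψ (yv l.1) (yv l.2)) V W := by
        simp only [pairSum, hP, msum, mul_add, sum_add_distrib, mul_sum, sum_mul]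
        refine congrArg₂ (· + ·) ?_ ?_
        · rw [sum_comm]
          exact sum_congr rfl fun q _ => sum_congr rfl fun r _ => by ring
        · rw [sum_comm (γ := ℤ × ℤ)]
          refine sum_congr rfl fun q _ => ?_
          rw [sum_comm]
          exact sum_congr rfl fun r _ => sum_congr rfl fun l _ => by ring
    _ ≤ Cb * P + (L.card : ℝ) * (3 * Cp ^ 2 * 24 * Cc * (E * P ^ a)) := by
        gcongr
        refine (sum_le_card_nsmul _ _ _ hcl).trans (le_of_eq ?_)
        rw [nsmul_eq_mul]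
    _ ≤ Cb * P + 121 * T ^ 2 * (3 * Cp ^ 2 * 24 * Cc * (E * P ^ a)) := by gcongr
    _ = Cb * P + 3 * Cp ^ 2 * 24 * Cc * 121 * (T ^ 2 * E) * P ^ a := by ring
    _ ≤ Cb * P + 3 * Cp ^ 2 * 24 * Cc * 121 * (2 / (κ / 11) ^ 2 * Real.exp (-(κ / 10) * T)) * P ^ a := by
        gcongr
    _ ≤ _ := by
        have h1 : 0 ≤ 3 * Cp ^ 2 * 24 * Cc * 121 * (2 / (κ / 11) ^ 2) * P := by positivity
        have h2 : 0 ≤ Cb * (Real.exp (-(κ / 10) * T) * P ^ a) := by positivity
        linarith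

lemma th_mul_Ph {r g : ℕ} (hr : 0 < r) (hg : g ∣ r) : th r * Ph g ≤ 1 := by
  have hg0 : 0 < g := Nat.pos_of_dvd_of_pos hg hr
  have hPh : Ph g = (th g)⁻¹ := by simp [Ph, th, inv_div]
  have hth : 0 < th g := by
    unfold th
    have := Nat.totient_pos.2 hg0
    positivity
  have hle : th r ≤ th g := by
    rw [th_eq_prod r hr, th_eq_prod g hg0]
    refine prod_le_prod_of_subset_of_le_one (Nat.primeFactors_mono hg hr.ne') ?_ ?_
    · exact fun p hp => (one_sub_inv_mem (Nat.prime_of_mem_primeFactors hp)).1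
    · exact fun p hp _ => (one_sub_inv_mem (Nat.prime_of_mem_primeFactors hp)).2
  rw [hPh, mul_inv_le_iff₀ hth, one_mul]
  exact hle

/-- The common resonance costs a linear amount, for geometrically growing denominators. -/
theorem zero_pairs :
    ∃ C : ℝ, 0 ≤ C ∧ ∀ (ψ : ℕ → ℝ) (S : Finset ℕ) (Bd : ℕ → ℕ), (∀ q, 0 ≤ ψ q) →
      (∀ q ∈ S, 0 < q ∧ 0 < ψ q ∧ 0 < Bd q) →
      (∀ a ∈ S.image Bd, ∀ b ∈ S.image Bd, ∀ c ∈ S.image Bd, a < b → b < c → 2 * a ≤ c) →
      pairSum (mu ψ) (fun q r => zeroK ψ (Bd q) (Bd r) q r) S S ≤ C * msum (mu ψ) S := by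
  classical
  obtain ⟨Cp, hCp⟩ := Ph_pow_le_rpow 1 (1 / 4) (by norm_num)
  have hCp1 : 1 ≤ Cp := by simpa [Ph] using hCp 1 one_pos
  refine ⟨2 * (Cp * 8), by positivity, fun ψ S Bd hψ hS hgeo => ?_⟩
  have hμ := mu_nonneg' hψ
  set F : ℕ → ℕ → ℝ := fun q r => if Surv (Bd q) (Bd r) q r ∧ Bd q ≤ Bd r then
    mu ψ q * (Cp * ((Bd q : ℝ) / Bd r) ^ (1 / 2 : ℝ)) else 0 with hF
  have hswap : ∀ q r, uu r q = vv q r ∧ vv r q = uu q r := fun q r => by
    simp [uu, vv, Nat.gcd_comm]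
  have hsymm : ∀ a b q r, Surv a b q r → Surv b a r q := fun a b q r h => by
    obtain ⟨e1, e2⟩ := hswap q r
    exact ⟨by rw [e2, Nat.gcd_comm]; exact h.2, by rw [e1, Nat.gcd_comm]; exact h.1⟩
  have hkey : ∀ q ∈ S, ∀ r ∈ S, Surv (Bd q) (Bd r) q r → Bd q ≤ Bd r →
      mu ψ q * mu ψ r * (Ph (uu q r * vv q r) * Ph (Nat.gcd q r) / etaP ψ q r)
        ≤ mu ψ q * (Cp * ((Bd q : ℝ) / Bd r) ^ (1 / 2 : ℝ)) := by
    intro q hq r hr ⟨hv, hu⟩ hle
    obtain ⟨hq0, hψq, hBq⟩ := hS q hq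
    obtain ⟨hr0, hψr, hBr⟩ := hS r hr
    have hη := etaP_pos hq0 hr0 hψq hψr
    set u := uu q r with hud
    set v := vv q r with hvd
    set G := Nat.gcd (Bd q) (Bd r)
    have hG : 0 < G := Nat.gcd_pos_of_pos_left _ hBq
    have hu0 : 0 < u := uu_pos q r hq0
    have hv0 : 0 < v := vv_pos q r hr0
    have huR : (0 : ℝ) < u := by exact_mod_cast hu0
    have hvu : v ≤ u := Nat.le_of_mul_le_mul_right (by rw [hv, hu]; exact hle) hG
    have h1 : mu ψ r * Ph (Nat.gcd q r) / etaP ψ q r ≤ 1 / u := by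
      rw [div_le_div_iff₀ hη huR, one_mul]
      calc mu ψ r * Ph (Nat.gcd q r) * u = (th r * Ph (Nat.gcd q r)) * ((u : ℝ) * ψ r) := by
            rw [mu]; ring
        _ ≤ 1 * ((u : ℝ) * ψ r) :=
            mul_le_mul_of_nonneg_right (th_mul_Ph hr0 (Nat.gcd_dvd_right q r)) (by positivity)
        _ ≤ _ := by
            unfold etaP
            rw [one_mul, ← hud, ← hvd]
            linarith [mul_nonneg (Nat.cast_nonneg v : (0 : ℝ) ≤ v) hψq.le]
    have h2 : Ph (u * v) ≤ Cp * (u : ℝ) ^ (1 / 2 : ℝ) := by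
      have h := hCp _ (Nat.mul_pos hu0 hv0)
      rw [pow_one] at h
      refine h.trans (mul_le_mul_of_nonneg_left ?_ (by linarith))
      push_cast
      calc ((u : ℝ) * v) ^ (1 / 4 : ℝ) ≤ ((u : ℝ) * u) ^ (1 / 4 : ℝ) :=
            Real.rpow_le_rpow (by positivity)
              (mul_le_mul_of_nonneg_left (by exact_mod_cast hvu) huR.le) (by norm_num)
        _ = _ := by
            rw [Real.mul_rpow huR.le huR.le, ← Real.rpow_add huR]; norm_num
    have h3 : (Bd r : ℝ) / Bd q ≤ u := by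
      rw [div_le_iff₀ (by exact_mod_cast hBq)]
      have hG' : G ≤ Bd q := Nat.gcd_le_left _ hBq
      calc (Bd r : ℝ) = (u : ℝ) * G := by exact_mod_cast hu.symm
        _ ≤ _ := mul_le_mul_of_nonneg_left (by exact_mod_cast hG') huR.le
    have h4 : 1 / (u : ℝ) * (u : ℝ) ^ (1 / 2 : ℝ) ≤ ((Bd q : ℝ) / Bd r) ^ (1 / 2 : ℝ) := by
      have hb : (0 : ℝ) < (Bd r : ℝ) / Bd q := by
        have : (0 : ℝ) < Bd r := by exact_mod_cast hBr
        have : (0 : ℝ) < Bd q := by exact_mod_cast hBq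
        positivity
      rw [one_div, inv_mul_eq_div, ← Real.rpow_sub_one huR.ne',
        show (1 / 2 - 1 : ℝ) = -(1 / 2) by norm_num, ← inv_div (Bd r : ℝ) (Bd q : ℝ),
        Real.inv_rpow hb.le, ← Real.rpow_neg hb.le]
      exact Real.rpow_le_rpow_of_nonpos hb h3 (by norm_num)
    calc mu ψ q * mu ψ r * (Ph (u * v) * Ph (Nat.gcd q r) / etaP ψ q r)
        = mu ψ q * (Ph (u * v) * (mu ψ r * Ph (Nat.gcd q r) / etaP ψ q r)) := by ring
      _ ≤ mu ψ q * (Cp * (u : ℝ) ^ (1 / 2 : ℝ) * (1 / u)) := by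
          refine mul_le_mul_of_nonneg_left (mul_le_mul h2 h1 ?_ (by positivity)) (hμ q)
          exact div_nonneg (mul_nonneg (hμ r) (Ph_nonneg _)) hη.le
      _ ≤ _ := by
          refine mul_le_mul_of_nonneg_left ?_ (hμ q)
          rw [mul_assoc, mul_comm ((u : ℝ) ^ _)]
          exact mul_le_mul_of_nonneg_left h4 (by linarith)
  have hF0 : ∀ q r, 0 ≤ F q r := fun q r => by
    simp only [hF]
    split_ifs
    · have := hμ q; positivity
    · exact le_rfl
  have hle : ∀ q ∈ S, ∀ r ∈ S,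
      mu ψ q * mu ψ r * zeroK ψ (Bd q) (Bd r) q r ≤ F q r + F r q := by
    intro q hq r hr
    unfold zeroK
    split_ifs with hs
    · rcases le_total (Bd q) (Bd r) with hle | hle
      · refine (hkey q hq r hr hs hle).trans ?_
        simp only [hF, if_pos (And.intro hs hle)]
        exact le_add_of_nonneg_right (hF0 r q)
      · obtain ⟨e1, e2⟩ := hswap q r
        have h := hkey r hr q hq (hsymm _ _ _ _ hs) hle
        have e3 : etaP ψ r q = etaP ψ q r := by unfold etaP; rw [e1, e2]; ring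
        rw [e1, e2, e3, Nat.gcd_comm r q, mul_comm (vv q r), mul_comm (mu ψ r) (mu ψ q)] at h
        refine h.trans ?_
        simp only [hF, if_pos (And.intro (hsymm _ _ _ _ hs) hle)]
        exact le_add_of_nonneg_left (hF0 q r)
    · simpa using add_nonneg (hF0 q r) (hF0 r q)
  have hrow : ∀ q ∈ S, ∑ r ∈ S, F q r ≤ Cp * 8 * mu ψ q := by
    intro q hq
    obtain ⟨hq0, -, hBq⟩ := hS q hq
    simp only [hF, ← sum_filter, ← mul_sum]
    rw [mul_comm (Cp * 8)]
    refine mul_le_mul_of_nonneg_left (mul_le_mul_of_nonneg_left ?_ (by linarith)) (hμ q)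
    set R := S.filter (fun r => Surv (Bd q) (Bd r) q r ∧ Bd q ≤ Bd r) with hR
    have hinj : Set.InjOn Bd ↑R := by
      intro r hr r' hr' he
      have key : ∀ z ∈ R, q * Bd q = z * Bd z := fun z hz => by
        obtain ⟨hz1, ⟨hv, hu⟩, -⟩ := mem_filter.1 hz
        have hq' : Nat.gcd q z * uu q z = q := Nat.mul_div_cancel' (Nat.gcd_dvd_left q z)
        have hz' : Nat.gcd q z * vv q z = z := Nat.mul_div_cancel' (Nat.gcd_dvd_right q z)
        calc q * Bd q = (Nat.gcd q z * uu q z) * (vv q z * Nat.gcd (Bd q) (Bd z)) := by rw [hq', hv]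
          _ = (Nat.gcd q z * vv q z) * (uu q z * Nat.gcd (Bd q) (Bd z)) := by ring
          _ = _ := by rw [hz', hu]
      have h1 := (key r hr).symm.trans (key r' hr')
      rw [he] at h1
      exact Nat.eq_of_mul_eq_mul_right (hS r' (mem_filter.1 hr').1).2.2 h1
    rw [← sum_image (f := fun b : ℕ => ((Bd q : ℝ) / b) ^ (1 / 2 : ℝ)) hinj]
    set Z := R.image Bd with hZ
    set x := Bd q
    set bin : ℕ → ℕ := fun b => Nat.log 2 (b / x) with hbin
    have hZx : ∀ b ∈ Z, x ≤ b ∧ b ∈ S.image Bd := fun b hb => by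
      obtain ⟨r, hr, rfl⟩ := mem_image.1 hb
      exact ⟨(mem_filter.1 hr).2.2, mem_image_of_mem Bd (mem_filter.1 hr).1⟩
    have hbinspec : ∀ b ∈ Z, x * 2 ^ bin b ≤ b ∧ b < x * 2 ^ (bin b + 1) := fun b hb => by
      have h1 : 1 ≤ b / x := (Nat.one_le_div_iff hBq).2 (hZx b hb).1
      constructor
      · calc x * 2 ^ bin b ≤ x * (b / x) :=
              Nat.mul_le_mul_left _ (Nat.pow_log_le_self 2 (by omega))
          _ ≤ b := Nat.mul_div_le b x
      · have := Nat.lt_pow_succ_log_self one_lt_two (b / x)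
        exact (Nat.div_lt_iff_lt_mul hBq).1 this |>.trans_eq (mul_comm _ _)
    have hfib : ∀ i, (Z.filter (bin · = i)).card ≤ 2 := by
      intro i
      by_contra hcard
      push Not at hcard
      set X := Z.filter (bin · = i) with hX
      obtain ⟨a, ha, b, hb, c, hc, hab, hac, hbc⟩ := two_lt_card.1 hcard
      have mem : ∀ w ∈ X, w ∈ S.image Bd ∧ x * 2 ^ i ≤ w ∧ w < x * 2 ^ (i + 1) := fun w hw => by
        obtain ⟨h1, rfl⟩ := mem_filter.1 hw
        exact ⟨(hZx w h1).2, hbinspec w h1⟩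
      obtain ⟨Sa, la, ua⟩ := mem a ha
      obtain ⟨Sb, lb, ub⟩ := mem b hb
      obtain ⟨Sc, lc, uc⟩ := mem c hc
      have e : x * 2 ^ (i + 1) = 2 * (x * 2 ^ i) := by ring
      rcases lt_or_gt_of_ne hab with h1 | h1 <;> rcases lt_or_gt_of_ne hac with h2 | h2 <;>
        rcases lt_or_gt_of_ne hbc with h3 | h3
      all_goals first
        | omega
        | (have := hgeo a Sa b Sb c Sc (by omega) (by omega); omega)
        | (have := hgeo a Sa c Sc b Sb (by omega) (by omega); omega)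
        | (have := hgeo b Sb a Sa c Sc (by omega) (by omega); omega)
        | (have := hgeo b Sb c Sc a Sa (by omega) (by omega); omega)
        | (have := hgeo c Sc a Sa b Sb (by omega) (by omega); omega)
        | (have := hgeo c Sc b Sb a Sa (by omega) (by omega); omega)
    set ρ : ℝ := (2 : ℝ) ^ (-(1 / 2) : ℝ) with hρ
    have hρ0 : 0 ≤ ρ := by positivity
    have hρ1 : ρ ≤ 3 / 4 := by
      rw [hρ, Real.rpow_neg two_pos.le, ← Real.sqrt_eq_rpow,
        inv_le_iff_one_le_mul₀ (by positivity)]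
      have : (4 / 3 : ℝ) ≤ Real.sqrt 2 := Real.le_sqrt_of_sq_le (by norm_num)
      linarith
    rw [← sum_fiberwise_of_maps_to (fun b hb => mem_image_of_mem bin hb)]
    calc ∑ i ∈ Z.image bin, ∑ b ∈ Z.filter (bin · = i), ((x : ℝ) / b) ^ (1 / 2 : ℝ)
        ≤ ∑ i ∈ Z.image bin, 2 * ρ ^ i := by
          refine sum_le_sum fun i _ => ?_
          refine (sum_le_card_nsmul _ _ (ρ ^ i) fun b hb => ?_).trans ?_
          · obtain ⟨h1, rfl⟩ := mem_filter.1 hb
            have hx : (0 : ℝ) < x := by exact_mod_cast hBq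
            have hb0 : (0 : ℝ) < b := lt_of_lt_of_le hx (by exact_mod_cast (hZx b h1).1)
            have h2 : (x : ℝ) / b ≤ ((2 : ℝ) ^ bin b)⁻¹ := by
              rw [div_le_iff₀ hb0, inv_mul_eq_div, le_div_iff₀ (by positivity)]
              exact_mod_cast (hbinspec b h1).1
            refine (Real.rpow_le_rpow (by positivity) h2 (by norm_num)).trans (le_of_eq ?_)
            rw [hρ, ← Real.rpow_natCast, ← Real.rpow_natCast, ← Real.rpow_neg two_pos.le,
              ← Real.rpow_mul two_pos.le, ← Real.rpow_mul two_pos.le]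
            congr 1
            ring
          · rw [nsmul_eq_mul]
            exact mul_le_mul_of_nonneg_right (by exact_mod_cast hfib i) (by positivity)
      _ ≤ 2 * (1 - ρ)⁻¹ := by
          rw [← mul_sum, ← tsum_geometric_of_lt_one hρ0 (by linarith)]
          exact mul_le_mul_of_nonneg_left ((summable_geometric_of_lt_one hρ0 (by linarith)).sum_le_tsum
            _ fun i _ => pow_nonneg hρ0 i) (by norm_num)
      _ ≤ 8 := by
          rw [← div_eq_mul_inv, div_le_iff₀ (by linarith)]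
          linarith
  calc pairSum (mu ψ) (fun q r => zeroK ψ (Bd q) (Bd r) q r) S S
      ≤ ∑ q ∈ S, ∑ r ∈ S, (F q r + F r q) := sum_le_sum fun q hq => sum_le_sum fun r hr => hle q hq r hr
    _ = 2 * ∑ q ∈ S, ∑ r ∈ S, F q r := by
        simp only [sum_add_distrib]
        rw [sum_comm (f := fun q r => F r q)]
        ring
    _ ≤ 2 * ∑ q ∈ S, Cp * 8 * mu ψ q := mul_le_mul_of_nonneg_left (sum_le_sum hrow) (by norm_num)
    _ = _ := by rw [← mul_sum, msum]; ring

end Vale.Agent.P028L
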