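import Vale.Agent.P028L.Cross
import Vale.Agent.P028.Cell
import Vale.Agent.P028U.Cell
import Vale.Agent.P028A.Pos

/-! P028L module MAIN: Q1 when different levels of `ψ` have different interval lengths. -/

namespace Vale.Agent.P028L

open Finset MeasureTheory Filter Topology
open Vale.Agent.P028
open Vale.Agent.P028.MainAux (cls scale cls_spec exists_block exists_residue sq_integral exists_approx
  one_le_scale)
open Vale.Agent.P028X (mu_nonneg_X Small aX omegaX)

/-- The separation hypothesis: the levels are close compared with the interval lengths, or comparable,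
or the two denominators meet in long windows only. -/
def Sep (K : ℝ) (ψ : ℕ → ℝ) (q r : ℕ) : Prop :=
  |Real.log (ψ q) - Real.log (ψ r)|
      ≤ K * (1 + |(Real.log q - Real.log (ψ q)) - (Real.log r - Real.log (ψ r))|) ∨
    (-Real.log (ψ q) ≤ K * -Real.log (ψ r) ∧ -Real.log (ψ r) ≤ K * -Real.log (ψ q)) ∨
    Real.exp (-K) * (ψ q * ψ r) ^ (-(1 / K)) ≤ ((r : ℝ) * ψ q + (q : ℝ) * ψ r) / Nat.gcd q r

lemma Sep.symm {K : ℝ} {ψ : ℕ → ℝ} {q r : ℕ} (h : Sep K ψ q r) : Sep K ψ r q := by
  rcases h with h | ⟨h1, h2⟩ | h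
  · left; rwa [abs_sub_comm, abs_sub_comm (Real.log r - _)]
  · right; left; exact ⟨h2, h1⟩
  · right; right
    rwa [mul_comm (ψ r) (ψ q), add_comm ((q : ℝ) * ψ r), Nat.gcd_comm r q]

/-- Approximation denominators of well separated scales grow geometrically. -/
lemma approx_geo {γ ti tj : ℝ} {A A' : ℤ} {B B' : ℕ} (h : IsApprox γ (Real.exp (ti / 2)) A B)
    (h' : IsApprox γ (Real.exp (tj / 2)) A' B') (hne : B ≠ B') (hgap : ti + 2 ≤ tj) :
    Real.exp (ti / 2) ≤ 2 * (B' : ℝ) := by
  obtain ⟨hB, hBQ, hco, hd⟩ := h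
  obtain ⟨hB', hBQ', hco', hd'⟩ := h'
  have hne' : A * (B' : ℤ) - A' * B ≠ 0 := by
    intro e
    have e' : A * (B' : ℤ) = A' * B := by linarith
    apply hne
    refine Nat.dvd_antisymm ?_ ?_
    · exact Int.natCast_dvd_natCast.1 (hco.symm.dvd_of_dvd_mul_left ⟨A', by rw [e', mul_comm]⟩)
    · exact Int.natCast_dvd_natCast.1 (hco'.symm.dvd_of_dvd_mul_left ⟨A, by rw [← e', mul_comm]⟩)
  set Q := Real.exp (ti / 2) with hQ
  set Q' := Real.exp (tj / 2) with hQ'
  have hQ0 : 0 < Q := Real.exp_pos _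
  have hQQ : 2 * Q ≤ Q' := by
    rw [hQ']
    refine le_trans ?_ (Real.exp_le_exp.2 (show ti / 2 + 1 ≤ tj / 2 by linarith))
    rw [Real.exp_add, mul_comm]
    exact mul_le_mul_of_nonneg_left (by linarith [Real.exp_one_gt_d9]) hQ0.le
  have h1 : (1 : ℝ) ≤ |((A * (B' : ℤ) - A' * B : ℤ) : ℝ)| := by
    rw [← Int.cast_abs]; exact_mod_cast Int.one_le_abs hne'
  have h2 : |((A * (B' : ℤ) - A' * B : ℤ) : ℝ)| ≤ (B' : ℝ) / Q + (B : ℝ) / Q' := by
    push_cast
    rw [show (A : ℝ) * B' - A' * B = -((B' : ℝ) * ((B : ℝ) * γ - A)) + (B : ℝ) * ((B' : ℝ) * γ - A') by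
      ring]
    refine (abs_add_le _ _).trans (add_le_add ?_ ?_)
    · rw [abs_neg, abs_mul, Nat.abs_cast, div_eq_mul_one_div]
      exact mul_le_mul_of_nonneg_left hd (Nat.cast_nonneg _)
    · rw [abs_mul, Nat.abs_cast, div_eq_mul_one_div]
      exact mul_le_mul_of_nonneg_left hd' (Nat.cast_nonneg _)
  have h3 : (B : ℝ) / Q' ≤ 1 / 2 := by
    rw [div_le_iff₀ (Real.exp_pos _)]; linarith
  have h4 : 1 / 2 ≤ (B' : ℝ) / Q := by linarith
  rw [le_div_iff₀ hQ0] at h4
  linarith

/-- The summability of the gains of all pairs of levels. -/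
lemma level_series {c : ℝ} (hc : 0 < c) :
    Summable (fun n : ℕ => ((n : ℝ) + 1) * Real.exp (-c * scale n)) := by
  have h : ∀ n : ℕ, (n : ℝ) * zeta0 ≤ scale n := fun n => by
    have := one_add_mul_le_pow (show (-2 : ℝ) ≤ zeta0 by norm_num [zeta0]) n
    unfold MainAux.scale
    linarith
  have hz : 0 < c * zeta0 := mul_pos hc (by norm_num [zeta0])
  refine ((Real.summable_pow_mul_exp_neg_nat_mul 1 hz).add
    (Real.summable_pow_mul_exp_neg_nat_mul 0 hz)).of_nonneg_of_le (fun n => by positivity) fun n => ?_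
  rw [pow_one, pow_zero, one_mul, ← add_one_mul]
  refine mul_le_mul_of_nonneg_left (Real.exp_le_exp.2 ?_) (by positivity)
  have := mul_le_mul_of_nonneg_left (h n) hc.le
  linarith

/-- The criterion below a threshold. -/
lemma levels_core (K : ℝ) (hK : 1 ≤ K) :
    ∃ T : ℝ, 1 ≤ T ∧ ∀ (γ : ℝ) (ψ : ℕ → ℝ) (S0 : Set ℕ), (∀ q, 0 ≤ ψ q) →
      (∀ q ∈ S0, 0 < ψ q ∧ ψ q ≤ Real.exp (-T)) → (∀ q ∈ S0, ∀ r ∈ S0, Sep K ψ q r) →
      ¬ Summable (S0.indicator (mu ψ)) →
      ∀ᵐ x : ℝ, {q : ℕ | 0 < q ∧ distInt ((q : ℝ) * x - γ) < ψ q}.Infinite := by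
  classical
  set κ := 1 / (2 * K) with hκdef
  have hκ : 0 < κ := by positivity
  have hκ1 : κ ≤ 1 := by rw [hκdef, div_le_one (by positivity)]; linarith
  obtain ⟨C1, t0, hcell⟩ := P028U.cell_boundU
  obtain ⟨C2, T0, hC2, hrest⟩ := cross_rest κ hκ hκ1
  obtain ⟨Cz, hCz, hzero⟩ := zero_pairs
  obtain ⟨C3, hfirst⟩ := integral_fq_interval
  obtain ⟨C4, hdivb⟩ := card_divisors_le (1 / 4) (by norm_num)
  set Th := max (max t0 T0) (max (4 * K) (2 * K ^ 2)) with hTh
  have hz : (0 : ℝ) < 1 + zeta0 := by norm_num [zeta0]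
  have hz1 : (1 : ℝ) < 1 + zeta0 := by norm_num [zeta0]
  obtain ⟨N, hN⟩ := pow_unbounded_of_one_lt (4 * K * (1 + zeta0)) hz1
  set ε := min (1 / 100000) (κ / 100) with hεdef
  have hε : Small ε := ⟨lt_min (by norm_num) (by positivity), min_le_left _ _⟩
  set c := κ / 10 with hcdef
  have hc : 0 < c := by positivity
  set sumC := ∑' n : ℕ, ((n : ℝ) + 1) * Real.exp (-c * scale n) with hsumC
  have hsumC0 : 0 ≤ sumC := tsum_nonneg fun n => by positivity
  refine ⟨max 1 ((1 + zeta0) * Th), le_max_left _ _, fun γ ψ S0 hψ hS0 hsep hdiv => ?_⟩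
  have hμ0 : ∀ q, 0 ≤ mu ψ q := mu_nonneg_X hψ
  have hw0 : ∀ q, 0 ≤ S0.indicator (mu ψ) q := Set.indicator_nonneg fun q _ => hμ0 q
  obtain ⟨i, hi⟩ := exists_residue (S0.indicator (mu ψ)) _
    (P028A.not_summable_good ψ hψ hw0 (Set.indicator_le_self' fun q _ => hμ0 q) hdiv 3)
    (cls ψ) (N + 1) N.succ_pos
  set P : Set ℕ := {q | q ∈ MainAux.Good ψ 3 ∧ cls ψ q % (N + 1) = i} with hP
  choose T hT hTsum using exists_block (S0.indicator (mu ψ)) P hw0 hi
  set T' : ℕ → Finset ℕ := fun k => (T k).filter (· ∈ S0) with hT'def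
  have hT'P : ∀ k, ∀ q ∈ T' k, (q ∈ P ∧ q ∈ S0) ∧ k ≤ q := fun k q hq => by
    obtain ⟨h1, h2⟩ := mem_filter.1 hq
    exact ⟨⟨(hT k q h1).1, h2⟩, (hT k q h1).2⟩
  set P' : Set ℕ := {q | q ∈ P ∧ q ∈ S0} with hP'
  have hgood : ∀ q ∈ P', 3 ≤ q ∧ 0 < ψ q ∧ ψ q ≤ 1 / 2 ∧ Th ≤ scale (cls ψ q) ∧
      1 ≤ -Real.log (ψ q) := by
    rintro q ⟨⟨⟨hq3, -⟩, -⟩, hqS⟩
    obtain ⟨hp, hle⟩ := hS0 q hqS
    have hL := Real.log_le_log hp hle
    rw [Real.log_exp] at hL
    have hL1 : 1 ≤ -Real.log (ψ q) := by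
      linarith [le_max_left (1 : ℝ) ((1 + zeta0) * Th)]
    refine ⟨hq3, hp, hle.trans ?_, ?_, hL1⟩
    · refine (Real.exp_le_exp.2 (neg_le_neg (le_max_left _ _))).trans ?_
      rw [Real.exp_neg, one_div]
      exact inv_anti₀ two_pos (by linarith [Real.add_one_le_exp (1 : ℝ)])
    · refine le_of_mul_le_mul_left ?_ hz
      linarith [le_max_right (1 : ℝ) ((1 + zeta0) * Th), (cls_spec ψ q hL1).2]
  have hThK : 4 * K ≤ Th ∧ 2 * K ^ 2 ≤ Th ∧ t0 ≤ Th ∧ T0 ≤ Th :=
    ⟨(le_max_left _ _).trans (le_max_right _ _), (le_max_right _ _).trans (le_max_right _ _),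
      (le_max_left _ _).trans (le_max_left _ _), (le_max_right _ _).trans (le_max_left _ _)⟩
  choose ab hab using fun m => exists_approx γ (scale m) (le_trans zero_le_one (one_le_scale m))
  set f : ℕ → ℝ → ℝ := fun q => fq γ ψ (ab (cls ψ q)).1 (ab (cls ψ q)).2 q with hf
  have hfn : ∀ q x, 0 ≤ f q x := fun q x => fq_nonneg γ ψ _ _ q x
  -- gaps between the levels
  have hgap : ∀ q ∈ P', ∀ r ∈ P', cls ψ q < cls ψ r →
      4 * K * (1 + zeta0) * scale (cls ψ q) ≤ scale (cls ψ r) := by
    rintro q ⟨hq, -⟩ r ⟨hr, -⟩ hlt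
    have hmod : cls ψ q ≡ cls ψ r [MOD N + 1] := by rw [Nat.ModEq, hq.2, hr.2]
    have := Nat.le_of_dvd (by omega) ((Nat.modEq_iff_dvd' hlt.le).1 hmod)
    refine le_trans (mul_le_mul_of_nonneg_right hN.le (le_trans zero_le_one (one_le_scale _))) ?_
    rw [scale, scale, ← pow_add]
    exact pow_le_pow_right₀ hz1.le (by omega)
  have hgeo : ∀ Sx : Finset ℕ, (∀ q ∈ Sx, q ∈ P') →
      ∀ a ∈ Sx.image (fun q => (ab (cls ψ q)).2), ∀ b ∈ Sx.image (fun q => (ab (cls ψ q)).2),
      ∀ c' ∈ Sx.image (fun q => (ab (cls ψ q)).2), a < b → b < c' → 2 * a ≤ c' := by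
    intro Sx hSx a ha b hb c' hc' hab' hbc
    set Bd := fun q => (ab (cls ψ q)).2 with hBd
    obtain ⟨qa, hqa, ea⟩ := mem_image.1 ha
    obtain ⟨qb, hqb, eb⟩ := mem_image.1 hb
    obtain ⟨qc, hqc, ec⟩ := mem_image.1 hc'
    have key : ∀ i ∈ Sx, ∀ j ∈ Sx, ∀ l ∈ Sx, cls ψ i < cls ψ j → cls ψ j < cls ψ l →
        Bd j ≠ Bd l → 2 * Bd i ≤ Bd l := by
      intro i hi' j hj l hl h1 h2 hne
      have g1 := hgap i (hSx i hi') j (hSx j hj) h1
      have g2 := hgap j (hSx j hj) l (hSx l hl) h2
      have s1 := one_le_scale (cls ψ j)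
      have s0 := one_le_scale (cls ψ i)
      have hK4 : 4 ≤ 4 * K * (1 + zeta0) := by
        have : 1 ≤ K * (1 + zeta0) := one_le_mul_of_one_le_of_one_le hK hz1.le
        linarith
      have si : 4 ≤ scale (cls ψ i) := le_trans (by linarith [hThK.1]) (hgood i (hSx i hi')).2.2.2.1
      have g1' := mul_le_mul_of_nonneg_right hK4 (le_trans zero_le_one s0)
      have g2' := mul_le_mul_of_nonneg_right hK4 (le_trans zero_le_one s1)
      have h := approx_geo (hab (cls ψ j)) (hab (cls ψ l)) hne (by linarith)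
      have hbi := (hab (cls ψ i)).2.1
      have h4 : 4 * Real.exp (scale (cls ψ i) / 2) ≤ Real.exp (scale (cls ψ j) / 2) := by
        refine le_trans ?_ (Real.exp_le_exp.2 (show scale (cls ψ i) / 2 + 3 ≤ scale (cls ψ j) / 2 by
          linarith))
        rw [Real.exp_add, mul_comm]
        exact mul_le_mul_of_nonneg_left (by linarith [Real.add_one_le_exp (3 : ℝ)]) (Real.exp_pos _).le
      have : 2 * (Bd i : ℝ) ≤ Bd l := by simp only [hBd]; linarith
      exact_mod_cast this
    have hne : ∀ i j, Bd i ≠ Bd j → cls ψ i ≠ cls ψ j := fun i j h e => h (by simp only [hBd, e])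
    have n1 := hne qa qb (by rw [ea, eb]; omega)
    have n2 := hne qa qc (by rw [ea, ec]; omega)
    have n3 := hne qb qc (by rw [eb, ec]; omega)
    rcases lt_or_gt_of_ne n1 with h1 | h1 <;> rcases lt_or_gt_of_ne n2 with h2 | h2 <;>
      rcases lt_or_gt_of_ne n3 with h3 | h3
    all_goals first
      | omega
      | (have := key qa hqa qb hqb qc hqc (by omega) (by omega) (by omega); omega)
      | (have := key qa hqa qc hqc qb hqb (by omega) (by omega) (by omega); omega)
      | (have := key qb hqb qa hqa qc hqc (by omega) (by omega) (by omega); omega)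
      | (have := key qb hqb qc hqc qa hqa (by omega) (by omega) (by omega); omega)
      | (have := key qc hqc qa hqa qb hqb (by omega) (by omega) (by omega); omega)
      | (have := key qc hqc qb hqb qa hqa (by omega) (by omega) (by omega); omega)
  -- second moment
  set M : ℕ → ℝ := fun k => ∑ q ∈ T' k, mu ψ q with hMdef
  have hM : ∀ k : ℕ, (k : ℝ) + 1 ≤ M k := fun k => by
    refine (hTsum k).trans (le_of_eq ?_)
    simp only [hMdef, hT'def, sum_filter, Set.indicator_apply]
  have hη00 : (0 : ℝ) < 1 := one_pos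
  have hMη : ∀ k, (1 : ℝ) ≤ M k := fun k =>
    le_trans (le_add_of_nonneg_left (Nat.cast_nonneg k)) (hM k)
  set Tot := 2 * max C1 0 + 8 * (Cz + C2 + 2 * C2 * sumC) with hTot
  have hsq : ∀ k, ∫ x in Set.Ico (0 : ℝ) 1, (∑ q ∈ T' k, f q x) ^ 2 ≤ Tot * M k ^ 2 := by
    intro k
    rw [sq_integral γ ψ (fun q => ab (cls ψ q)) (T' k)]
    set Sk := T' k with hSk
    have hSkP : ∀ q ∈ Sk, q ∈ P' := fun q hq => (hT'P k q hq).1
    set I := fun q r => ∫ x in Set.Ico (0 : ℝ) 1, f q x * f r x with hI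
    have hIsymm : ∀ q r, I q r = I r q := fun q r => by simp only [hI, mul_comm]
    have hI0 : ∀ q r, 0 ≤ I q r := fun q r =>
      integral_nonneg fun x => mul_nonneg (hfn q x) (hfn r x)
    set lev := Sk.image (cls ψ) with hlev
    set cell := fun j => Sk.filter (fun q => cls ψ q = j) with hcelldef
    set Mj := fun j => ∑ q ∈ cell j, mu ψ q with hMj
    have hMj0 : ∀ j, 0 ≤ Mj j := fun j => sum_nonneg fun q _ => hμ0 q
    have hmaps : ∀ q ∈ Sk, cls ψ q ∈ lev := fun q hq => mem_image_of_mem _ hq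
    have hMsum : ∑ j ∈ lev, Mj j = M k := sum_fiberwise_of_maps_to hmaps (mu ψ)
    have hMjle : ∀ j, Mj j ≤ M k := fun j =>
      sum_le_sum_of_subset_of_nonneg (filter_subset _ _) fun q _ _ => hμ0 q
    have hM1 := hMη k
    -- one level
    have hsame : ∀ j ∈ lev, ∑ q ∈ cell j, ∑ r ∈ cell j, I q r
        ≤ max C1 0 * (Mj j + Mj j ^ 2) := by
      intro j hj
      obtain ⟨q', hq', rfl⟩ := mem_image.1 hj
      set S := cell (cls ψ q') with hS
      set m := cls ψ q' with hm
      have hSm : ∀ q ∈ S, q ∈ P' ∧ cls ψ q = m := fun q hq =>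
        ⟨hSkP q (mem_filter.1 hq).1, (mem_filter.1 hq).2⟩
      set K' := ∑ q ∈ S, Real.log q with hK'
      have hK0 : 0 ≤ K' := Finset.sum_nonneg fun q _ => Real.log_natCast_nonneg q
      have hSc : IsCell zeta0 K' (scale m) S ψ := by
        intro q hq
        obtain ⟨hqP, hqm⟩ := hSm q hq
        obtain ⟨h3, hp, -, -, hL⟩ := hgood q hqP
        obtain ⟨s1, s2⟩ := cls_spec ψ q hL
        rw [hqm] at s1 s2
        refine ⟨by omega, ?_, ?_, ?_⟩
        · rw [← Real.le_log_iff_exp_le hp]; linarith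
        · rw [← Real.log_le_iff_le_exp hp]; linarith
        · exact (Finset.single_le_sum (fun q _ => Real.log_natCast_nonneg q) hq).trans
            (le_mul_of_one_le_right hK0 (one_le_scale m))
      have h := hcell K' γ ψ _ S (ab m).1 (ab m).2
        (hThK.2.2.1.trans (hgood q' (hSkP q' hq')).2.2.2.1) hψ hSc (hab m)
      rw [sq_integral γ ψ (fun _ => ab m) S] at h
      have e : ∀ q ∈ S, ab (cls ψ q) = ab m := fun q hq => by rw [(hSm q hq).2]
      have hnn : 0 ≤ msum (mu ψ) S := sum_nonneg fun q _ => hμ0 q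
      calc _ = ∑ q ∈ S, ∑ r ∈ S, ∫ x in Set.Ico (0 : ℝ) 1,
            fq γ ψ (ab m).1 (ab m).2 q x * fq γ ψ (ab m).1 (ab m).2 r x :=
            sum_congr rfl fun q hq => sum_congr rfl fun r hr => by simp only [hI, hf, e q hq, e r hr]
        _ ≤ C1 * (msum (mu ψ) S + msum (mu ψ) S ^ 2) := h
        _ ≤ _ := mul_le_mul_of_nonneg_right (le_max_left _ _) (by positivity)
    -- two levels
    set Bd := fun q => (ab (cls ψ q)).2 with hBd
    set Z := fun q r => mu ψ q * mu ψ r * zeroK ψ (Bd q) (Bd r) q r with hZdef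
    have hZ0 : ∀ q ∈ Sk, ∀ r ∈ Sk, 0 ≤ Z q r := fun q hq r hr => by
      refine mul_nonneg (mul_nonneg (hμ0 q) (hμ0 r)) ?_
      unfold zeroK
      split_ifs
      · exact div_nonneg (mul_nonneg (Ph_nonneg _) (Ph_nonneg _)) (add_nonneg
          (mul_nonneg (Nat.cast_nonneg _) (hψ q)) (mul_nonneg (Nat.cast_nonneg _) (hψ r)))
      · exact le_rfl
    have hZsum : ∑ q ∈ Sk, ∑ r ∈ Sk, Z q r ≤ Cz * M k := hzero ψ Sk Bd hψ
      (fun q hq => ⟨by have := (hgood q (hSkP q hq)).1; omega, (hgood q (hSkP q hq)).2.1,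
        (hab _).1⟩) (hgeo Sk hSkP)
    have hpair : ∀ j ∈ lev, ∀ l ∈ lev, j < l → ∑ q ∈ cell j, ∑ r ∈ cell l, I q r
        ≤ 4 * (∑ q ∈ cell j, ∑ r ∈ cell l, Z q r) + 4 * (C2 * (Mj j * Mj l)
          + C2 * Real.exp (-c * scale l) * (M k + M k ^ 2)) := by
      intro j hj l hl hjl
      obtain ⟨qj, hqj, rfl⟩ := mem_image.1 hj
      obtain ⟨ql, hql, rfl⟩ := mem_image.1 hl
      set V := cell (cls ψ qj) with hV
      set W := cell (cls ψ ql) with hW
      have hVm : ∀ q ∈ V, q ∈ P' ∧ cls ψ q = cls ψ qj := fun q hq =>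
        ⟨hSkP q (mem_filter.1 hq).1, (mem_filter.1 hq).2⟩
      have hWm : ∀ q ∈ W, q ∈ P' ∧ cls ψ q = cls ψ ql := fun q hq =>
        ⟨hSkP q (mem_filter.1 hq).1, (mem_filter.1 hq).2⟩
      set t := scale (cls ψ qj) with ht
      set s := scale (cls ψ ql) with hs
      have hts : 4 * K * (1 + zeta0) * t ≤ s := hgap qj (hSkP qj hqj) ql (hSkP ql hql) hjl
      have ht1 : 1 ≤ t := one_le_scale _
      have hKz : 1 ≤ K * (1 + zeta0) := one_le_mul_of_one_le_of_one_le hK hz1.le
      have htles : t ≤ s := by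
        have := mul_le_mul_of_nonneg_right hKz (show 0 ≤ t by linarith)
        linarith
      obtain ⟨A, B, hAB⟩ : ∃ (A : ℤ) (B : ℕ), (A, B) = ab (cls ψ qj) := ⟨_, _, rfl⟩
      obtain ⟨A', B', hAB'⟩ : ∃ (A : ℤ) (B : ℕ), (A, B) = ab (cls ψ ql) := ⟨_, _, rfl⟩
      have a1 := hab (cls ψ qj)
      have a2 := hab (cls ψ ql)
      rw [← hAB] at a1
      rw [← hAB'] at a2
      have eV : ∀ q ∈ V, ab (cls ψ q) = (A, B) := fun q hq => by rw [(hVm q hq).2, hAB]
      have eW : ∀ q ∈ W, ab (cls ψ q) = (A', B') := fun q hq => by rw [(hWm q hq).2, hAB']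
      have hov : ∀ q ∈ V, ∀ r ∈ W, I q r ≤ 4 * Z q r
          + 4 * (mu ψ q * mu ψ r * restK γ ψ A B A' B' q r) := by
        intro q hq r hr
        obtain ⟨h3, hp, hh, -⟩ := hgood q (hVm q hq).1
        obtain ⟨h3', hp', hh', -⟩ := hgood r (hWm r hr).1
        have := overlap_split γ ψ A A' B B' q r a1.2.2.1 a2.2.2.1 a1.1 a2.1 (by omega) (by omega)
          hp hh hp' hh'
        simpa [hI, hf, hZdef, hBd, eV q hq, eW r hr] using this
      have hs0 : Th ≤ s := (hgood ql (hSkP ql hql)).2.2.2.1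
      have hQ1 : ∀ x : ℝ, 0 ≤ x → 1 / Real.exp (x / 2) ≤ 1 := fun x hx => by
        rw [div_le_one (Real.exp_pos _)]; exact Real.one_le_exp (by linarith)
      have hr := hrest γ ψ A A' B B' V W s (hThK.2.2.2.trans hs0) hψ
        (fun q hq => by
          have hmem : q ∈ P' ∧ scale (cls ψ q) ≤ s := by
            rcases mem_union.1 hq with h | h
            · exact ⟨(hVm q h).1, by rw [(hVm q h).2]; exact htles⟩
            · exact ⟨(hWm q h).1, by rw [(hWm q h).2]⟩
          obtain ⟨h3, hp, hh, -, hL⟩ := hgood q hmem.1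
          refine ⟨by omega, ?_, hh⟩
          rw [← Real.le_log_iff_exp_le hp]
          have h2 := (cls_spec ψ q hL).2
          have := mul_le_mul (show 1 + zeta0 ≤ 2 by norm_num [zeta0]) hmem.2
            (le_trans zero_le_one (one_le_scale _)) (by norm_num)
          linarith)
        (a1.2.1.trans (Real.exp_le_exp.2 (by linarith))) a2.2.1
        (a1.2.2.2.trans (hQ1 _ (by linarith))) (a2.2.2.2.trans (hQ1 _ (by linarith)))
        (fun q hq r hr => by
          obtain ⟨h3, hp, hh, -, hL⟩ := hgood q (hVm q hq).1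
          obtain ⟨h3', hp', hh', -, hL'⟩ := hgood r (hWm r hr).1
          have sq2 := (cls_spec ψ q hL).2
          have sr1 := (cls_spec ψ r hL').1
          rw [(hVm q hq).2, ← ht] at sq2
          rw [(hWm r hr).2, ← hs] at sr1
          have hK0 : 0 ≤ K := by linarith
          have hbig : 4 * K * -Real.log (ψ q) ≤ s := by
            refine le_trans ?_ hts
            calc 4 * K * -Real.log (ψ q) ≤ 4 * K * ((1 + zeta0) * t) :=
                  mul_le_mul_of_nonneg_left sq2 (by linarith)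
              _ = _ := by ring
          have hq0 : 0 < q := by omega
          have hr0 : 0 < r := by omega
          have hg0 : 0 < Nat.gcd q r := Nat.gcd_pos_of_pos_left _ hq0
          have hqe : (q : ℝ) = (Nat.gcd q r : ℝ) * uu q r := by
            exact_mod_cast (Nat.mul_div_cancel' (Nat.gcd_dvd_left q r)).symm
          have hre : (r : ℝ) = (Nat.gcd q r : ℝ) * vv q r := by
            exact_mod_cast (Nat.mul_div_cancel' (Nat.gcd_dvd_right q r)).symm
          rcases hsep q (hVm q hq).1.2 r (hWm r hr).1.2 with h | ⟨-, h⟩ | h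
          · left
            have hlog : Real.log ((vv q r : ℝ) * ψ q) - Real.log ((uu q r : ℝ) * ψ r)
                = (Real.log r - Real.log (ψ r)) - (Real.log q - Real.log (ψ q)) := by
              have hu : (0 : ℝ) < uu q r := by exact_mod_cast uu_pos q r hq0
              have hv : (0 : ℝ) < vv q r := by exact_mod_cast vv_pos q r hr0
              have hg : (0 : ℝ) < (Nat.gcd q r : ℝ) := by exact_mod_cast hg0
              rw [hqe, hre, Real.log_mul hv.ne' hp.ne', Real.log_mul hu.ne' hp'.ne',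
                Real.log_mul hg.ne' hu.ne', Real.log_mul hg.ne' hv.ne']
              ring
            rw [hlog, abs_sub_comm]
            have h1 : 3 / 4 * s ≤ |Real.log (ψ q) - Real.log (ψ r)| := by
              refine le_trans ?_ (le_abs_self _)
              have : 1 * -Real.log (ψ q) ≤ K * -Real.log (ψ q) :=
                mul_le_mul_of_nonneg_right hK (by linarith)
              linarith
            have h2 := h1.trans h
            refine le_of_mul_le_mul_left ?_ (show (0 : ℝ) < K by linarith)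
            rw [hκdef, show K * (1 / (2 * K) * s) = s / 2 by field_simp]
            linarith [hThK.1]
          · exfalso
            have : 0 < K * -Real.log (ψ q) := mul_pos (by linarith) (by linarith)
            linarith
          · right
            refine le_trans ?_ (h.trans (le_of_eq ?_))
            · rw [Real.rpow_def_of_pos (mul_pos hp hp'), ← Real.exp_add, Real.log_mul hp.ne' hp'.ne']
              refine Real.exp_le_exp.2 (le_of_mul_le_mul_left ?_ (show (0 : ℝ) < K by linarith))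
              rw [hκdef, show K * (1 / (2 * K) * s) = s / 2 by field_simp,
                show K * (-K + (Real.log (ψ q) + Real.log (ψ r)) * -(1 / K))
                  = -(K ^ 2) + -(Real.log (ψ q) + Real.log (ψ r)) by field_simp]
              linarith [hThK.2.1]
            · unfold etaP
              rw [hqe, hre]
              have hg : (0 : ℝ) < (Nat.gcd q r : ℝ) := by exact_mod_cast hg0
              rw [← hqe, ← hre]
              field_simp
              rw [hqe, hre]
              ring)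
      refine (sum_le_sum fun q hq => sum_le_sum fun r hr => hov q hq r hr).trans ?_
      simp only [sum_add_distrib, ← mul_sum]
      refine add_le_add le_rfl (mul_le_mul_of_nonneg_left ?_ (by norm_num))
      refine hr.trans (add_le_add le_rfl ?_)
      refine mul_le_mul_of_nonneg_left ?_ (by positivity)
      refine le_trans (Real.rpow_le_rpow (mul_nonneg (hMj0 _) (hMj0 _))
        (mul_le_mul (hMjle _) (hMjle _) (hMj0 _) (by linarith)) ?_) (omegaX hε (M k) (by linarith))
      unfold aX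
      linarith [hε.1]
    -- assembly
    have hfib : ∑ q ∈ Sk, ∑ r ∈ Sk, I q r = ∑ j ∈ lev, ∑ l ∈ lev, ∑ q ∈ cell j, ∑ r ∈ cell l, I q r := by
      rw [← sum_fiberwise_of_maps_to hmaps (fun q => ∑ r ∈ Sk, I q r)]
      refine sum_congr rfl fun j _ => ?_
      rw [sum_comm (s := lev)]
      exact sum_congr rfl fun q _ => (sum_fiberwise_of_maps_to hmaps (fun r => I q r)).symm
    set X := fun j l => ∑ q ∈ cell j, ∑ r ∈ cell l, I q r with hX
    set Y := fun j l => ∑ q ∈ cell j, ∑ r ∈ cell l, Z q r with hY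
    have hXs : ∀ j l, X j l = X l j := fun j l => by
      simp only [hX]; rw [sum_comm]; simp only [hIsymm]
    have hX0 : ∀ j l, 0 ≤ X j l := fun j l => sum_nonneg fun q _ => sum_nonneg fun r _ => hI0 q r
    set G := fun j l => if j < l then X j l else 0 with hG
    have h3 : ∑ j ∈ lev, ∑ l ∈ lev, X j l
        = ∑ j ∈ lev, X j j + 2 * ∑ j ∈ lev, ∑ l ∈ lev, G j l := by
      have hs : ∀ j ∈ lev, ∀ l ∈ lev, X j l = (if j = l then X j j else 0) + G j l + G l j := by
        intro j _ l _
        simp only [hG]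
        rcases lt_trichotomy j l with h | rfl | h
        · rw [if_neg h.ne, if_pos h, if_neg h.le.not_gt]; ring
        · simp
        · rw [if_neg h.ne', if_neg h.le.not_gt, if_pos h, hXs l j]; ring
      rw [sum_congr rfl fun j hj => sum_congr rfl fun l hl => hs j hj l hl]
      simp only [sum_add_distrib, sum_ite_eq]
      rw [sum_comm (f := fun j l => G l j)]
      rw [sum_congr rfl fun j hj => if_pos hj]
      ring
    have hdiag : ∑ j ∈ lev, X j j ≤ max C1 0 * (M k + M k ^ 2) := by
      refine (sum_le_sum hsame).trans ?_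
      rw [← mul_sum, sum_add_distrib, hMsum]
      refine mul_le_mul_of_nonneg_left (add_le_add le_rfl ?_) (le_max_right _ _)
      calc ∑ j ∈ lev, Mj j ^ 2 ≤ ∑ j ∈ lev, Mj j * M k := sum_le_sum fun j _ => by
            rw [sq]; exact mul_le_mul_of_nonneg_left (hMjle j) (hMj0 j)
        _ = _ := by rw [← sum_mul, hMsum, sq]
    have hoff : ∑ j ∈ lev, ∑ l ∈ lev, G j l
        ≤ 4 * (Cz * M k) + 4 * (C2 * M k ^ 2 + C2 * sumC * (M k + M k ^ 2)) := by
      have hle : ∀ j ∈ lev, ∀ l ∈ lev, G j l ≤ 4 * Y j l + 4 * (C2 * (Mj j * Mj l)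
          + if j < l then C2 * Real.exp (-c * scale l) * (M k + M k ^ 2) else 0) := by
        intro j hj l hl
        simp only [hG]
        have hY0 : 0 ≤ Y j l := sum_nonneg fun q hq => sum_nonneg fun r hr =>
          hZ0 q (mem_filter.1 hq).1 r (mem_filter.1 hr).1
        split_ifs with h
        · exact hpair j hj l hl h
        · have := mul_nonneg hC2 (mul_nonneg (hMj0 j) (hMj0 l))
          linarith
      refine (sum_le_sum fun j hj => sum_le_sum fun l hl => hle j hj l hl).trans ?_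
      simp only [sum_add_distrib, ← mul_sum]
      refine add_le_add (mul_le_mul_of_nonneg_left ?_ (by norm_num))
        (mul_le_mul_of_nonneg_left (add_le_add (le_of_eq ?_) ?_) (by norm_num))
      · refine le_trans (le_of_eq ?_) hZsum
        rw [← sum_fiberwise_of_maps_to hmaps (fun q => ∑ r ∈ Sk, Z q r)]
        refine sum_congr rfl fun j _ => ?_
        simp only [hY]
        rw [sum_comm (s := lev)]
        exact sum_congr rfl fun q _ => sum_fiberwise_of_maps_to hmaps (fun r => Z q r)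
      · rw [← sum_mul, hMsum, sq]
      · rw [sum_comm]
        calc ∑ l ∈ lev, ∑ j ∈ lev, (if j < l then C2 * Real.exp (-c * scale l) * (M k + M k ^ 2) else 0)
            ≤ ∑ l ∈ lev, ((l : ℝ) + 1) * (C2 * Real.exp (-c * scale l) * (M k + M k ^ 2)) := by
              refine sum_le_sum fun l _ => ?_
              rw [← sum_filter, sum_const, nsmul_eq_mul]
              refine mul_le_mul_of_nonneg_right ?_ (by positivity)
              have hsub : (lev.filter (· < l)).card ≤ l := by
                refine (card_le_card fun x hx => ?_).trans (le_of_eq (card_range l))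
                exact mem_range.2 (mem_filter.1 hx).2
              have : ((lev.filter (· < l)).card : ℝ) ≤ l := by exact_mod_cast hsub
              linarith
          _ = C2 * (∑ l ∈ lev, ((l : ℝ) + 1) * Real.exp (-c * scale l)) * (M k + M k ^ 2) := by
              rw [mul_sum, sum_mul]
              exact sum_congr rfl fun l _ => by ring
          _ ≤ _ := by
              gcongr
              exact (level_series hc).sum_le_tsum _ fun n _ => by positivity
    have hMM : M k ≤ M k ^ 2 := by rw [sq]; exact le_mul_of_one_le_left (by linarith) hM1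
    change ∑ q ∈ Sk, ∑ r ∈ Sk, I q r ≤ _
    rw [hfib]
    change ∑ j ∈ lev, ∑ l ∈ lev, X j l ≤ _
    rw [h3, hTot]
    have u1 := mul_le_mul_of_nonneg_left hMM (le_max_right C1 0)
    have u2 := mul_le_mul_of_nonneg_left hMM hCz
    have u3 := mul_le_mul_of_nonneg_left hMM (mul_nonneg hC2 hsumC0)
    linarith
  set F : ℕ → ℝ → ℝ := fun k x => (∑ q ∈ T' k, f q x) / (2 * M k) with hF
  have hMpos : ∀ k, 0 < M k := fun k => hη00.trans_le (hMη k)
  have hfm : ∀ q, Measurable (f q) := fun q => fq_measurable γ ψ _ _ q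
  refine full_measure_of_blocks γ ψ F (Tot / 4)
    (fun k => (Finset.measurable_sum _ fun q _ => hfm q).div_const _)
    (fun k x => div_nonneg (sum_nonneg fun q _ => hfn q x) (by linarith [hMpos k]))
    (fun k => ⟨((T' k).card : ℝ) / (2 * M k), fun x => ?_⟩) ?_ ?_ ?_
  · refine div_le_div_of_nonneg_right ?_ (by linarith [hMpos k])
    calc ∑ q ∈ T' k, f q x ≤ ∑ q ∈ T' k, (1 : ℝ) := sum_le_sum fun q _ => fq_le_one γ ψ _ _ q x
      _ = ((T' k).card : ℝ) := by simp
  · intro k x hne
    obtain ⟨q, hq, hq'⟩ := exists_ne_zero_of_sum_ne_zero (left_ne_zero_of_mul hne)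
    obtain ⟨hqP, hkq⟩ := hT'P k q hq
    exact ⟨q, hkq, by have := (hgood q hqP).1; omega, fq_ne_zero γ ψ _ _ q x hq'⟩
  · intro k
    have hpos' := hMpos k
    simp only [hF, div_pow]
    rw [integral_div, div_le_iff₀ (by positivity)]
    exact (hsq k).trans_eq (by ring)
  · intro a b ha hab' hb'
    rw [← tendsto_sub_nhds_zero_iff]
    set C5 := max C3 0 * max C4 0 ^ 2 * 2 with hC5
    refine squeeze_zero_norm (a := fun k : ℕ => C5 / ((k : ℝ) + 1) ^ (1 / 2 : ℝ)) (fun k => ?_) ?_
    · have hpos' := hMpos k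
      have hfi : ∀ q ∈ T' k, IntegrableOn (f q) (Set.Ioc a b) := fun q _ =>
        IntegrableOn.of_bound (by simp [Real.volume_Ioc]) (hfm q).aestronglyMeasurable
          1 (Eventually.of_forall fun x => by
            rw [Real.norm_of_nonneg (hfn q x)]; exact fq_le_one γ ψ _ _ q x)
      have e : (∫ x in Set.Ioc a b, F k x) - (b - a)
          = (∑ q ∈ T' k, ((∫ x in Set.Ioc a b, f q x) - (b - a) * (2 * mu ψ q))) / (2 * M k) := by
        simp only [hF]
        rw [integral_div, integral_finsetSum _ hfi, sum_sub_distrib, ← mul_sum, ← mul_sum]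
        simp only [hMdef] at hpos' ⊢
        field_simp
      rw [Real.norm_eq_abs, e, abs_div, abs_of_pos (by linarith : (0 : ℝ) < 2 * M k),
        div_le_iff₀ (by linarith)]
      refine (abs_sum_le_sum_abs _ _).trans ?_
      calc ∑ q ∈ T' k, |(∫ x in Set.Ioc a b, f q x) - (b - a) * (2 * mu ψ q)|
          ≤ ∑ q ∈ T' k, 2 * (C5 / ((k : ℝ) + 1) ^ (1 / 2 : ℝ)) * mu ψ q := by
            refine sum_le_sum fun q hq => ?_
            obtain ⟨hqP, hkq⟩ := hT'P k q hq
            obtain ⟨h3, -⟩ := hgood q hqP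
            have hqR : (0 : ℝ) < q := by exact_mod_cast (by omega : 0 < q)
            refine (hfirst γ ψ _ _ q a b (hab _).2.2.1 (by omega) (hψ q) (hgood q hqP).2.2.1 ha hab'
              hb').trans ?_
            have hτ : (q.divisors.card : ℝ) ≤ max C4 0 * (q : ℝ) ^ (1 / 4 : ℝ) :=
              (hdivb q (by omega)).trans
                (mul_le_mul_of_nonneg_right (le_max_left _ _) (by positivity))
            have hμ : ψ q ≤ (q.divisors.card : ℝ) * mu ψ q := by
              have hth : 1 ≤ (q.divisors.card : ℝ) * th q := by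
                refine le_trans ?_ (mul_le_mul_of_nonneg_right
                  (Ph_le_card_divisors q (by omega)) (th_nonneg q))
                have hne : (q.totient : ℝ) ≠ 0 := by
                  exact_mod_cast (Nat.totient_pos.2 (by omega : 0 < q)).ne'
                rw [Ph, th]
                field_simp
                rfl
              calc ψ q ≤ (q.divisors.card : ℝ) * th q * ψ q :=
                    le_mul_of_one_le_left (hψ q) hth
                _ = _ := by rw [mu]; ring
            have hμq := hμ0 q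
            have hk : ((k : ℝ) + 1) ^ (1 / 2 : ℝ) ≤ 2 * (q : ℝ) ^ (1 / 2 : ℝ) := by
              calc ((k : ℝ) + 1) ^ (1 / 2 : ℝ) ≤ ((4 : ℝ) * q) ^ (1 / 2 : ℝ) := by
                    refine Real.rpow_le_rpow (by positivity) ?_ (by norm_num)
                    have : (k : ℝ) ≤ q := by exact_mod_cast hkq
                    have : (1 : ℝ) ≤ q := by exact_mod_cast (by omega : 1 ≤ q)
                    linarith
                _ = _ := by
                    rw [Real.mul_rpow (by norm_num) hqR.le, show (4 : ℝ) = 2 ^ (2 : ℝ) by norm_num,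
                      ← Real.rpow_mul (by norm_num)]
                    norm_num
            calc C3 * ψ q * (q.divisors.card : ℝ) / q
                ≤ max C3 0 * ((max C4 0 * (q : ℝ) ^ (1 / 4 : ℝ)) * mu ψ q)
                    * (max C4 0 * (q : ℝ) ^ (1 / 4 : ℝ)) / q := by
                  refine div_le_div_of_nonneg_right ?_ hqR.le
                  exact mul_le_mul (mul_le_mul (le_max_left _ _)
                    (hμ.trans (mul_le_mul_of_nonneg_right hτ hμq)) (hψ q) (le_max_right _ _))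
                    hτ (Nat.cast_nonneg _) (by positivity)
              _ = max C3 0 * max C4 0 ^ 2 * mu ψ q / (q : ℝ) ^ (1 / 2 : ℝ) := by
                  have e2 : (q : ℝ) ^ (1 / 4 : ℝ) * (q : ℝ) ^ (1 / 4 : ℝ)
                      = (q : ℝ) ^ (1 / 2 : ℝ) := by
                    rw [← Real.rpow_add hqR]; norm_num
                  have e3 : (q : ℝ) ^ (1 / 2 : ℝ) * (q : ℝ) ^ (1 / 2 : ℝ) = q := by
                    rw [← Real.rpow_add hqR]; norm_num
                  rw [eq_div_iff (by positivity), div_mul_eq_mul_div, div_eq_iff hqR.ne']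
                  linear_combination (max C3 0 * max C4 0 ^ 2 * mu ψ q) *
                    ((q : ℝ) ^ (1 / 2 : ℝ) * e2 + e3)
              _ ≤ 2 * (C5 / ((k : ℝ) + 1) ^ (1 / 2 : ℝ)) * mu ψ q := by
                  rw [hC5, div_le_iff₀ (by positivity), mul_comm (2 : ℝ), div_mul_eq_mul_div,
                    div_mul_eq_mul_div, div_mul_eq_mul_div, le_div_iff₀ (by positivity)]
                  have := mul_le_mul_of_nonneg_left hk
                    (show 0 ≤ max C3 0 * max C4 0 ^ 2 * mu ψ q by positivity)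
                  have h0 : 0 ≤ max C3 0 * max C4 0 ^ 2 * mu ψ q * (q : ℝ) ^ (1 / 2 : ℝ) := by
                    positivity
                  linarith
        _ = _ := by rw [← mul_sum]; simp only [hMdef]; ring
    · exact tendsto_const_nhds.div_atTop ((tendsto_rpow_atTop (by norm_num)).comp
        (tendsto_natCast_atTop_atTop.atTop_add tendsto_const_nhds))

/-- Q1 with no extra divergence on a set of separated levels, for every shift. -/
theorem weak_inhom_DS_levels (γ K : ℝ) (hK : 1 ≤ K) (ψ : ℕ → ℝ) (hψ : ∀ q, 0 ≤ ψ q) (S : Set ℕ)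
    (hsep : ∀ q ∈ S, ∀ r ∈ S, 0 < ψ q → 0 < ψ r → Sep K ψ q r)
    (hdiv : ¬ Summable (S.indicator (mu ψ))) :
    ∀ᵐ x : ℝ, {q : ℕ | 0 < q ∧ distInt ((q : ℝ) * x - γ) < ψ q}.Infinite := by
  classical
  obtain ⟨T, hT1, hcore⟩ := levels_core K hK
  obtain ⟨T1, hT11, hcore1⟩ := levels_core 1 le_rfl
  by_cases hbig : {q : ℕ | 1 / 2 < ψ q}.Infinite
  · refine Eventually.of_forall fun x => ((hbig.sdiff (Set.finite_singleton 0))).mono ?_
    rintro q ⟨hq, hq0⟩
    exact ⟨Nat.pos_of_ne_zero (by simpa using hq0), lt_of_le_of_lt (abs_sub_round _) hq⟩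
  set S2 : Set ℕ := {q | q ∈ S ∧ 0 < ψ q ∧ ψ q ≤ Real.exp (-T)} with hS2
  by_cases h2 : Summable (S2.indicator (mu ψ))
  swap
  · exact hcore γ ψ S2 hψ (fun q hq => hq.2)
      (fun q hq r hr => hsep q hq.1 r hr.1 hq.2.1 hr.2.1) h2
  set T' := max T T1 with hT'
  set S1 : Set ℕ := {q | q ∈ S ∧ Real.exp (-T) < ψ q} with hS1
  set ψ' : ℕ → ℝ := fun q => if q ∈ S1 then Real.exp (-T') else 0 with hψ'
  have h0 : ∀ q, 0 ≤ ψ' q := fun q => by
    simp only [hψ']; split_ifs
    · exact (Real.exp_pos _).le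
    · exact le_rfl
  have hle : ∀ q, ψ' q ≤ ψ q := fun q => by
    simp only [hψ']; split_ifs with h
    · exact le_trans (Real.exp_le_exp.2 (neg_le_neg (le_max_left _ _))) h.2.le
    · exact hψ q
  have hval : ∀ q ∈ S1, ψ' q = Real.exp (-T') := fun q hq => if_pos hq
  have hd : ¬ Summable (S1.indicator (mu ψ')) := by
    intro hs
    apply hdiv
    obtain hfin : {q : ℕ | 1 / 2 < ψ q}.Finite := Set.not_infinite.1 hbig
    refine ((h2.add (hs.mul_left (Real.exp T'))).add (summable_of_ne_finset_zero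
      (s := hfin.toFinset) (f := fun q => ({q : ℕ | 1 / 2 < ψ q}).indicator (mu ψ) q) fun q hq =>
        Set.indicator_of_notMem (fun h => hq (hfin.mem_toFinset.2 h)) _)).of_nonneg_of_le
      (Set.indicator_nonneg fun q _ => mu_nonneg_X hψ q) fun q => ?_
    have n1 : 0 ≤ S2.indicator (mu ψ) q := Set.indicator_nonneg (fun q _ => mu_nonneg_X hψ q) q
    have n2 : 0 ≤ Real.exp T' * S1.indicator (mu ψ') q :=
      mul_nonneg (Real.exp_pos _).le (Set.indicator_nonneg (fun q _ => mu_nonneg_X h0 q) q)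
    have n3 : 0 ≤ ({q : ℕ | 1 / 2 < ψ q}).indicator (mu ψ) q :=
      Set.indicator_nonneg (fun q _ => mu_nonneg_X hψ q) q
    by_cases hS : q ∈ S
    swap
    · rw [Set.indicator_of_notMem hS]; linarith
    rw [Set.indicator_of_mem hS]
    rcases eq_or_lt_of_le (hψ q) with h | hp
    · have : mu ψ q = 0 := by rw [mu, ← h, mul_zero]
      linarith
    by_cases hle' : ψ q ≤ Real.exp (-T)
    · rw [Set.indicator_of_mem (show q ∈ S2 from ⟨hS, hp, hle'⟩)]
      linarith
    have hq1 : q ∈ S1 := ⟨hS, not_le.1 hle'⟩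
    by_cases hhalf : ψ q ≤ 1 / 2
    · rw [Set.indicator_of_mem hq1]
      have : mu ψ q ≤ Real.exp T' * mu ψ' q := by
        rw [mu, mu, hval q hq1, mul_left_comm, ← Real.exp_add, add_neg_cancel, Real.exp_zero]
        exact mul_le_mul_of_nonneg_left (by linarith) (th_nonneg q)
      linarith
    · rw [Set.indicator_of_mem (show q ∈ {q : ℕ | 1 / 2 < ψ q} from not_le.1 hhalf)]
      linarith
  have hx' := hcore1 γ ψ' S1 h0
    (fun q hq => by
      rw [hval q hq]
      exact ⟨Real.exp_pos _, Real.exp_le_exp.2 (neg_le_neg (le_max_right _ _))⟩)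
    (fun q hq r hr => Or.inr (Or.inl (by rw [hval q hq, hval r hr, one_mul]; exact ⟨le_rfl, le_rfl⟩)))
    hd
  filter_upwards [hx'] with x hx
  exact hx.mono fun q hq => ⟨hq.1, hq.2.trans_le (hle q)⟩

end Vale.Agent.P028L
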