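import Vale.Agent.P028L.Overlap2
import Vale.Agent.P028.Schur

/-! P028L module KERNEL: bounds for the factor of a coincidence with two exclusion rationals. -/

namespace Vale.Agent.P028L

open Finset
open Vale.Agent.P028
open Vale.Agent.P028.Overlap

lemma ratio_pos {p : ℕ} (hp : p.Prime) : 1 ≤ (p : ℝ) / ((p : ℝ) - 1) := ratio_nonneg hp.two_le

lemma killF_mem (A : ℤ) (B : ℕ) (A' : ℤ) (B' : ℕ) (q r : ℕ) (n : ℤ) {p : ℕ} (hp : p.Prime) :
    0 ≤ killF A B A' B' q r n p ∧ killF A B A' B' q r n p ≤ (p : ℝ) / ((p : ℝ) - 1) := by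
  have h := ratio_pos hp
  unfold killF
  split_ifs <;> constructor <;> linarith

lemma gPart_nonneg (A : ℤ) (B : ℕ) (A' : ℤ) (B' : ℕ) (q r : ℕ) (n : ℤ) :
    0 ≤ gPart A B A' B' q r n :=
  prod_nonneg fun p hp => by
    linarith [ratio_pos (Nat.prime_of_mem_primeFactors (mem_filter.1 hp).1)]

lemma W2_nonneg (A : ℤ) (B : ℕ) (A' : ℤ) (B' : ℕ) (q r : ℕ) (n : ℤ) :
    0 ≤ W2 A B A' B' q r n :=
  mul_nonneg (prod_nonneg fun _ hp => (killF_mem A B A' B' q r n (Nat.prime_of_mem_primeFactors hp)).1)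
    (gPart_nonneg A B A' B' q r n)

lemma prod_ratio_le_Ph {s : Finset ℕ} {m : ℕ} (hm : 0 < m) (hs : s ⊆ m.primeFactors) :
    ∏ p ∈ s, (p : ℝ) / ((p : ℝ) - 1) ≤ Ph m := by
  rw [Ph_eq_prod m hm]
  exact prod_le_prod_of_subset_of_one_le hs
    (fun p hp => by linarith [ratio_pos (Nat.prime_of_mem_primeFactors (hs hp))])
    fun p hp _ => ratio_pos (Nat.prime_of_mem_primeFactors hp)

lemma W2_le (A : ℤ) (B : ℕ) (A' : ℤ) (B' : ℕ) {q r : ℕ} (hq : 0 < q) (hr : 0 < r) (n : ℤ) :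
    W2 A B A' B' q r n ≤ Ph (uu q r * vv q r) * gPart A B A' B' q r n := by
  refine mul_le_mul_of_nonneg_right ?_ (gPart_nonneg ..)
  rw [Ph_eq_prod _ (uu_mul_vv_pos q r hq hr)]
  exact prod_le_prod (fun _ hp => (killF_mem A B A' B' q r n (Nat.prime_of_mem_primeFactors hp)).1)
    fun _ hp => (killF_mem A B A' B' q r n (Nat.prime_of_mem_primeFactors hp)).2

lemma gPart_le_gcd (A : ℤ) (B : ℕ) (A' : ℤ) (B' : ℕ) {q r : ℕ} (hq : 0 < q) (n : ℤ) :
    gPart A B A' B' q r n ≤ Ph (Nat.gcd q r) :=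
  prod_ratio_le_Ph (Nat.gcd_pos_of_pos_left _ hq) (filter_subset _ _)

lemma gPart_le_D2 (A : ℤ) (B : ℕ) (A' : ℤ) (B' : ℕ) {q r : ℕ} {n : ℤ}
    (h : D2 A B A' B' q r n ≠ 0) :
    gPart A B A' B' q r n ≤ Ph (D2 A B A' B' q r n).natAbs := by
  refine prod_ratio_le_Ph (Int.natAbs_pos.2 h) fun p hp => ?_
  obtain ⟨h1, -, h2⟩ := mem_filter.1 hp
  exact Nat.mem_primeFactors.2 ⟨Nat.prime_of_mem_primeFactors h1, Int.natCast_dvd.1 h2,
    Int.natAbs_ne_zero.2 h⟩

/-- A coincidence on the common resonance survives for one pair of ratios only. -/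
lemma D2_zero_survivor {A A' : ℤ} {B B' q r : ℕ} {n : ℤ} (hcop : IsCoprime A (B : ℤ))
    (hcop' : IsCoprime A' (B' : ℤ)) (hB : 0 < B) (hq : 0 < q) (hr : 0 < r)
    (hD : D2 A B A' B' q r n = 0) (hW : W2 A B A' B' q r n ≠ 0) :
    vv q r * Nat.gcd B B' = B ∧ uu q r * Nat.gcd B B' = B' := by
  set u := uu q r with hu
  set v := vv q r with hv
  have hco : Nat.Coprime u v := Nat.coprime_div_gcd_div_gcd (Nat.gcd_pos_of_pos_left _ hq)
  set G := Nat.gcd B B' with hG
  have hG0 : 0 < G := Nat.gcd_pos_of_pos_left _ hB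
  obtain ⟨b, hb⟩ : G ∣ B := Nat.gcd_dvd_left _ _
  obtain ⟨b', hb'⟩ : G ∣ B' := Nat.gcd_dvd_right _ _
  have hbb : Nat.Coprime b b' := by
    have h := Nat.gcd_mul_left G b b'
    rw [← hb, ← hb', ← hG] at h
    exact (Nat.mul_eq_left hG0.ne').1 h.symm
  have hGI : (G : ℤ) ≠ 0 := by exact_mod_cast hG0.ne'
  have hBI : (B : ℤ) = G * b := by exact_mod_cast hb
  have hB'I : (B' : ℤ) = G * b' := by exact_mod_cast hb'
  have h0 : (G : ℤ) * b * b' * n + A * b' * v - A' * b * u = 0 := by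
    refine (mul_eq_zero.1 (show (G : ℤ) *
      ((G : ℤ) * b * b' * n + A * b' * v - A' * b * u) = 0 from ?_)).resolve_left hGI
    rw [D2, ← hu, ← hv, hBI, hB'I] at hD
    linear_combination hD
  have hbbI : IsCoprime (b' : ℤ) (b : ℤ) := Nat.isCoprime_iff_coprime.2 hbb.symm
  have hA'b : IsCoprime (b' : ℤ) A' :=
    ((hB'I ▸ hcop').of_mul_right_right).symm
  have hAb : IsCoprime (b : ℤ) A := ((hBI ▸ hcop).of_mul_right_right).symm
  obtain ⟨z, hz⟩ : (b' : ℤ) ∣ (u : ℤ) := by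
    refine (hA'b.mul_right hbbI).dvd_of_dvd_mul_left ⟨(G : ℤ) * b * n + A * v, ?_⟩
    linear_combination -h0
  obtain ⟨x, hx⟩ : (b : ℤ) ∣ (v : ℤ) := by
    refine (hAb.mul_right hbbI.symm).dvd_of_dvd_mul_left ⟨A' * u - (G : ℤ) * b' * n, ?_⟩
    linear_combination h0
  have hb0 : (b : ℤ) ≠ 0 := by
    intro e; rw [e, mul_zero] at hBI; omega
  have hb'0 : (b' : ℤ) ≠ 0 := by
    intro e
    rw [e, zero_mul] at hz
    have := uu_pos q r hq
    omega
  have eX : (B : ℤ) * n + A * v = A' * b * z := by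
    refine mul_left_cancel₀ hb'0 ?_
    rw [hBI]
    linear_combination h0 + A' * b * hz
  have eY : A' * u - (B' : ℤ) * n = A * b' * x := by
    refine mul_left_cancel₀ hb0 ?_
    rw [hB'I]
    linear_combination -h0 + A * b' * hx
  have nokill : ∀ p ∈ (u * v).primeFactors, killF A B A' B' q r n p ≠ 0 := fun p hp =>
    prod_ne_zero_iff.1 (left_ne_zero_of_mul hW) p hp
  have huv0 : u * v ≠ 0 := (uu_mul_vv_pos q r hq hr).ne'
  have hz1 : z.natAbs = 1 := by
    by_contra hne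
    obtain ⟨p, hp, hpz⟩ := Nat.exists_prime_and_dvd hne
    have hpi := Nat.prime_iff_prime_int.1 hp
    have hpzI : (p : ℤ) ∣ z := Int.natCast_dvd.2 hpz
    have hpu : p ∣ u := Int.natCast_dvd_natCast.1 (hz ▸ hpzI.mul_left _)
    have hdX : (p : ℤ) ∣ (B : ℤ) * n + A * v := eX ▸ hpzI.mul_left _
    refine nokill p (Nat.mem_primeFactors.2 ⟨hp, hpu.mul_right v, huv0⟩) (if_pos (Or.inl
      ⟨hpu, fun hpB => ?_, hdX⟩))
    have hpB' : (p : ℤ) ∣ (B : ℤ) := Int.natCast_dvd_natCast.2 hpB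
    rcases hpi.dvd_or_dvd ((dvd_add_right (hpB'.mul_right n)).1 hdX) with h | h
    · exact hpi.not_unit (hcop.isUnit_of_dvd' h hpB')
    · exact hp.not_dvd_one (hco ▸ Nat.dvd_gcd hpu (Int.natCast_dvd_natCast.1 h))
  have hx1 : x.natAbs = 1 := by
    by_contra hne
    obtain ⟨p, hp, hpx⟩ := Nat.exists_prime_and_dvd hne
    have hpi := Nat.prime_iff_prime_int.1 hp
    have hpxI : (p : ℤ) ∣ x := Int.natCast_dvd.2 hpx
    have hpv : p ∣ v := Int.natCast_dvd_natCast.1 (hx ▸ hpxI.mul_left _)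
    have hdY : (p : ℤ) ∣ A' * u - (B' : ℤ) * n := eY ▸ hpxI.mul_left _
    refine nokill p (Nat.mem_primeFactors.2 ⟨hp, hpv.mul_left u, huv0⟩) (if_pos (Or.inr
      ⟨hpv, fun hpB => ?_, hdY⟩))
    have hpB' : (p : ℤ) ∣ (B' : ℤ) := Int.natCast_dvd_natCast.2 hpB
    rcases hpi.dvd_or_dvd ((dvd_sub_left (hpB'.mul_right n)).1 hdY) with h | h
    · exact hpi.not_unit (hcop'.isUnit_of_dvd' h hpB')
    · exact hp.not_dvd_one (hco ▸ Nat.dvd_gcd (Int.natCast_dvd_natCast.1 h) hpv)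
  have eu : u = b' := by
    have := congrArg Int.natAbs hz
    rwa [Int.natAbs_mul, hz1, Int.natAbs_natCast, Int.natAbs_natCast, mul_one] at this
  have ev : v = b := by
    have := congrArg Int.natAbs hx
    rwa [Int.natAbs_mul, hx1, Int.natAbs_natCast, Int.natAbs_natCast, mul_one] at this
  exact ⟨by rw [ev, hb, mul_comm], by rw [eu, hb', mul_comm]⟩

/-- `|D₂|` through the two approximations. -/
lemma abs_D2_le (γ : ℝ) (A A' : ℤ) (B B' q r : ℕ) (n : ℤ) :
    |(D2 A B A' B' q r n : ℝ)|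
      ≤ (B : ℝ) * B' * |(n : ℝ) + γ * (hh q r : ℝ)|
        + |(B : ℝ) * γ - A| * B' * (vv q r : ℝ) + |(B' : ℝ) * γ - A'| * B * (uu q r : ℝ) := by
  have h1 : (D2 A B A' B' q r n : ℝ) = (B : ℝ) * B' * ((n : ℝ) + γ * (hh q r : ℝ))
      + (-(((B : ℝ) * γ - A) * B' * (vv q r : ℝ))) + ((B' : ℝ) * γ - A') * B * (uu q r : ℝ) := by
    simp only [D2, hh]
    push_cast
    ring
  rw [h1]
  refine (abs_add_three _ _ _).trans (le_of_eq ?_)
  rw [abs_neg]
  simp only [abs_mul, Nat.abs_cast]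

/-- One pair of coefficients for finitely many primes. -/
lemma exists_crt (s : Finset ℕ) (hs : ∀ p ∈ s, p.Prime) (f : ℕ → ℤ) :
    ∃ x : ℤ, ∀ p ∈ s, (p : ℤ) ∣ x - f p := by
  classical
  induction s using Finset.induction_on with
  | empty => exact ⟨0, by simp⟩
  | @insert q s hq ih =>
    obtain ⟨x, hx⟩ := ih fun p hp => hs p (mem_insert_of_mem hp)
    set M := ∏ p ∈ s, p
    have hMq : Nat.Coprime M q := Nat.Coprime.prod_left fun p hp =>
      (Nat.coprime_primes (hs p (mem_insert_of_mem hp)) (hs q (mem_insert_self q s))).2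
        fun e => hq (e ▸ hp)
    obtain ⟨a, b, hab⟩ : IsCoprime (M : ℤ) (q : ℤ) := Nat.isCoprime_iff_coprime.2 hMq
    refine ⟨x + (M : ℤ) * (a * (f q - x)), fun p hp => ?_⟩
    rcases mem_insert.1 hp with rfl | hp
    · exact ⟨b * (x - f p), by linear_combination (f p - x) * hab⟩
    · rw [add_sub_right_comm]
      exact dvd_add (hx p hp) ((Int.natCast_dvd_natCast.2 (dvd_prod_of_mem _ hp)).mul_right _)

/-- Inclusion-exclusion in a window, on one class of a modulus. -/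
lemma sieve_lin (γ η : ℝ) (q r D : ℕ) (c d : ℤ) (s : Finset ℕ) (hη : 0 < η) (hD : 0 < D)
    (hDc : IsCoprime c (D : ℤ)) (hs : ∀ p ∈ s, p.Prime ∧ ¬ (p : ℤ) ∣ c ∧ ¬ p ∣ D) :
    ∑ n ∈ (nWin γ η q r).filter (fun n : ℤ => (D : ℤ) ∣ c * n + d), primeFactor s (c * n + d)
      ≤ 2 * η / D + 2 ^ s.card * ∏ p ∈ s, (p : ℝ) / ((p : ℝ) - 1) := by
  set R := ∏ p ∈ s, (p : ℝ) / ((p : ℝ) - 1)
  have hR : 0 ≤ R := Finset.prod_nonneg fun p hp => by linarith [ratio_nonneg (hs p hp).1.two_le]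
  have hpt : ∀ x : ℤ, primeFactor s x = R *
      ∑ T ∈ s.powerset, (-1 : ℝ) ^ T.card * (if ((∏ p ∈ T, p : ℕ) : ℤ) ∣ x then 1 else 0) := by
    intro x
    have h1 : primeFactor s x = R * ∏ p ∈ s, (1 + -(if (p : ℤ) ∣ x then (1 : ℝ) else 0)) := by
      rw [primeFactor, ← Finset.prod_mul_distrib]
      refine Finset.prod_congr rfl fun p _ => ?_
      split_ifs <;> ring
    rw [h1, Finset.prod_one_add]
    congr 1
    refine Finset.sum_congr rfl fun T hT => ?_
    rw [Finset.prod_neg, Finset.prod_boole]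
    congr 1
    refine if_congr ?_ rfl rfl
    simp only [Int.natCast_dvd]
    refine ⟨fun h => ?_, fun h p hp => (Finset.dvd_prod_of_mem _ hp).trans h⟩
    exact Finset.prod_primes_dvd _
      (fun p hp => (hs p (Finset.mem_powerset.1 hT hp)).1.prime) h
  simp only [hpt, ← Finset.mul_sum]
  rw [Finset.sum_comm]
  have hterm : ∀ T ∈ s.powerset,
      ∑ n ∈ (nWin γ η q r).filter (fun n : ℤ => (D : ℤ) ∣ c * n + d),
        (-1 : ℝ) ^ T.card * (if ((∏ p ∈ T, p : ℕ) : ℤ) ∣ c * n + d then 1 else 0)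
      ≤ 2 * η / D * ∏ p ∈ T, (-(1 / (p : ℝ))) + 1 := by
    intro T hT
    have hT' := fun p hp => hs p (Finset.mem_powerset.1 hT hp)
    set m := ∏ p ∈ T, p with hm
    have hm0 : 0 < m := Finset.prod_pos fun p hp => (hT' p hp).1.pos
    have hDm : Nat.Coprime D m :=
      Nat.Coprime.prod_right fun p hp => ((hT' p hp).1.coprime_iff_not_dvd.2 (hT' p hp).2.2).symm
    have hBm : IsCoprime c (m : ℤ) := by
      rw [hm]
      push_cast
      exact IsCoprime.prod_right fun p hp => ((Int.prime_iff_natAbs_prime.2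
        (by simpa using (hT' p hp).1)).coprime_iff_not_dvd.2 (hT' p hp).2.1).symm
    have hBM : IsCoprime c ((D * m : ℕ) : ℤ) := by
      push_cast
      exact hDc.mul_right hBm
    have hcl := card_class γ η q r c d (D * m) hη (Nat.mul_pos hD hm0) hBM
    have hset : (nWin γ η q r).filter (fun n : ℤ => ((D * m : ℕ) : ℤ) ∣ c * n + d)
        = ((nWin γ η q r).filter (fun n : ℤ => (D : ℤ) ∣ c * n + d)).filter
            (fun n : ℤ => (m : ℤ) ∣ c * n + d) := by
      rw [Finset.filter_filter]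
      refine Finset.filter_congr fun n _ => ?_
      simp only [Int.natCast_dvd]
      exact ⟨fun h => ⟨(Nat.dvd_mul_right D m).trans h, (Nat.dvd_mul_left m D).trans h⟩,
        fun h => hDm.mul_dvd_of_dvd_of_dvd h.1 h.2⟩
    rw [hset] at hcl
    rw [← Finset.mul_sum, Finset.sum_boole]
    have he : ∏ p ∈ T, (-(1 / (p : ℝ))) = (-1 : ℝ) ^ T.card / (m : ℝ) := by
      rw [Finset.prod_neg, hm]
      simp only [one_div, Finset.prod_inv_distrib]
      push_cast
      ring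
    rw [he]
    push_cast at hcl ⊢
    have hb : |(-1 : ℝ) ^ T.card| = 1 := by rw [abs_pow, abs_neg, abs_one, one_pow]
    set X : ℝ := ((((nWin γ η q r).filter (fun n : ℤ => (D : ℤ) ∣ c * n + d)).filter
            (fun n : ℤ => (m : ℤ) ∣ c * n + d)).card : ℝ)
    have := le_abs_self ((-1 : ℝ) ^ T.card * (X - 2 * η / ((D : ℝ) * m)))
    rw [abs_mul, hb, one_mul] at this
    have e : 2 * η / (D : ℝ) * ((-1 : ℝ) ^ T.card / (m : ℝ))
        = (-1 : ℝ) ^ T.card * (2 * η / ((D : ℝ) * m)) := by ring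
    rw [e]
    linarith
  calc R * _ ≤ R * ∑ T ∈ s.powerset, (2 * η / D * ∏ p ∈ T, (-(1 / (p : ℝ))) + 1) :=
        mul_le_mul_of_nonneg_left (Finset.sum_le_sum hterm) hR
    _ = _ := by
        rw [Finset.sum_add_distrib, ← Finset.mul_sum, ← Finset.prod_one_add, Finset.sum_const,
          Finset.card_powerset, nsmul_eq_mul, mul_one, mul_add]
        have h1 : R * ∏ p ∈ s, (1 + -(1 / (p : ℝ))) = 1 := by
          rw [← Finset.prod_mul_distrib]
          refine Finset.prod_eq_one fun p hp => ?_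
          have hp2 : (2 : ℝ) ≤ p := by exact_mod_cast (hs p hp).1.two_le
          have h2 : (p : ℝ) - 1 ≠ 0 := by linarith
          have h3 : (p : ℝ) ≠ 0 := by linarith
          field_simp
          ring
        rw [mul_left_comm, h1]
        push_cast
        ring

/-- A long window is quasi-independent when the data are polynomially bounded by its length. -/
theorem sum_W2_big (E : ℝ) (hE : 1 ≤ E) :
    ∃ C : ℝ, 0 ≤ C ∧ ∀ (γ η : ℝ) (A A' : ℤ) (B B' q r : ℕ), 0 < q → 0 < r → 1 ≤ η →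
      ((uu q r * vv q r : ℕ) : ℝ) ≤ η ^ E →
      (∀ n ∈ nWin γ η q r, |(D2 A B A' B' q r n : ℝ)| ≤ η ^ E) →
      ∑ n ∈ (nWin γ η q r).filter (fun n => D2 A B A' B' q r n ≠ 0), W2 A B A' B' q r n ≤ C * η := by
  classical
  set θ := 1 / (16 * E) with hθdef
  have hθ : 0 < θ := by positivity
  have hθE : E * θ ≤ 1 / 16 := by rw [hθdef]; field_simp; rfl
  obtain ⟨Cd, hCd⟩ := card_divisors_le θ hθ
  obtain ⟨Cp, hCp⟩ := Ph_pow_le_rpow 1 (1 / 4) (by norm_num)
  have hCd1 : 1 ≤ Cd := by simpa using hCd 1 one_pos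
  have hCp1 : 1 ≤ Cp := by simpa [Ph] using hCp 1 one_pos
  have hS0 := sumThreeHalf_nonneg
  refine ⟨2 * Cp * sumThreeHalf + Cd ^ 2 * Cp * sumThreeHalf + 3 * Cd ^ 2 * Cp, by positivity,
    fun γ η A A' B B' q r hq hr hη huvE hDE => ?_⟩
  have hη0 : 0 < η := by linarith
  set u := uu q r with hu
  set v := vv q r with hv
  set U := (u * v).primeFactors with hU
  set s := U.filter (fun p => ¬ ((p ∣ u ∧ p ∣ B) ∨ (p ∣ v ∧ p ∣ B'))) with hs
  set G0 := (Nat.gcd q r).primeFactors.filter (fun p => ¬ p ∣ u * v * (B * B')) with hG0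
  have huv := uu_mul_vv_pos q r hq hr
  rw [← hu, ← hv] at huv
  have hco : Nat.Coprime u v := Nat.coprime_div_gcd_div_gcd (Nat.gcd_pos_of_pos_left _ hq)
  have hsp : ∀ p ∈ s, p.Prime := fun p hp => Nat.prime_of_mem_primeFactors (mem_filter.1 hp).1
  have hGp : ∀ p ∈ G0, p.Prime := fun p hp => Nat.prime_of_mem_primeFactors (mem_filter.1 hp).1
  have hsG : ∀ p ∈ s, p ∉ G0 := fun p hp h =>
    (mem_filter.1 h).2 (dvd_mul_of_dvd_left (Nat.dvd_of_mem_primeFactors (mem_filter.1 hp).1) _)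
  have hall : ∀ p ∈ s ∪ G0, p.Prime := fun p hp => (mem_union.1 hp).elim (hsp p) (hGp p)
  -- the coefficients of the linear forms
  set fc : ℕ → ℤ := fun p =>
    if p ∈ G0 then (B : ℤ) * B' else if p ∣ u then (B : ℤ) else -(B' : ℤ) with hfc
  set fd : ℕ → ℤ := fun p =>
    if p ∈ G0 then A * B' * v - A' * B * u else if p ∣ u then A * v else A' * u with hfd
  obtain ⟨c, hc⟩ := exists_crt _ hall fc
  obtain ⟨d, hd⟩ := exists_crt _ hall fd
  have hlin : ∀ p ∈ s ∪ G0, ∀ n : ℤ,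
      ((p : ℤ) ∣ c * n + d ↔ (p : ℤ) ∣ fc p * n + fd p) := fun p hp n => by
    have : (p : ℤ) ∣ (c * n + d) - (fc p * n + fd p) := by
      rw [show (c * n + d) - (fc p * n + fd p) = (c - fc p) * n + (d - fd p) by ring]
      exact dvd_add ((hc p hp).mul_right n) (hd p hp)
    exact dvd_iff_dvd_of_dvd_sub this
  have hcne : ∀ p ∈ s ∪ G0, ¬ (p : ℤ) ∣ c := fun p hp h => by
    have hf : (p : ℤ) ∣ fc p := (dvd_iff_dvd_of_dvd_sub (hc p hp)).1 h
    have hp' := hall p hp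
    simp only [hfc] at hf
    split_ifs at hf with h1 h2
    · refine (mem_filter.1 h1).2 (dvd_mul_of_dvd_right ?_ _)
      exact Int.natCast_dvd_natCast.1 (by push_cast; exact hf)
    · have h3 := (mem_union.1 hp).resolve_right h1
      exact (mem_filter.1 h3).2 (Or.inl ⟨h2, Int.natCast_dvd_natCast.1 hf⟩)
    · have h3 := (mem_union.1 hp).resolve_right h1
      have hpv := (hp'.dvd_mul.1 (Nat.dvd_of_mem_primeFactors (mem_filter.1 h3).1)).resolve_left h2
      exact (mem_filter.1 h3).2 (Or.inr ⟨hpv, Int.natCast_dvd_natCast.1 (dvd_neg.1 hf)⟩)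
  set N := (nWin γ η q r).filter (fun n => D2 A B A' B' q r n ≠ 0) with hN
  set w : Finset ℕ → ℝ := fun T => ∏ p ∈ T, 1 / ((p : ℝ) - 1) with hw
  have hmod : ∀ T, T ⊆ G0 → ∀ n : ℤ, (∀ p ∈ T, (p : ℤ) ∣ D2 A B A' B' q r n) ↔
      ((∏ p ∈ T, p : ℕ) : ℤ) ∣ c * n + d := fun T hT n => by
    have e : ∀ p ∈ T, ((p : ℤ) ∣ c * n + d ↔ (p : ℤ) ∣ D2 A B A' B' q r n) := fun p hp => by
      rw [hlin p (mem_union_right _ (hT hp)) n]
      simp only [hfc, hfd, if_pos (hT hp), D2, ← hu, ← hv]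
      ring_nf
    refine ⟨fun h => Int.natCast_dvd.2 (Finset.prod_primes_dvd _ (fun p hp => (hGp p (hT hp)).prime)
      fun p hp => Int.natCast_dvd.1 ((e p hp).2 (h p hp))), fun h p hp => (e p hp).1
      ((Int.natCast_dvd_natCast.2 (Finset.dvd_prod_of_mem _ hp)).trans h)⟩
  have hkill : ∀ n : ℤ, ∏ p ∈ U, killF A B A' B' q r n p = primeFactor s (c * n + d) := by
    intro n
    rw [primeFactor, hs, prod_filter]
    refine prod_congr rfl fun p hp => ?_
    have pp := Nat.prime_of_mem_primeFactors hp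
    have hpuv := Nat.dvd_of_mem_primeFactors hp
    unfold killF
    rw [← hu, ← hv]
    by_cases hB : (p ∣ u ∧ p ∣ B) ∨ (p ∣ v ∧ p ∣ B')
    · rw [if_neg, if_pos hB, if_neg (not_not_intro hB)]
      rintro (⟨h1, h2, -⟩ | ⟨h1, h2, -⟩)
      · rcases hB with ⟨-, h⟩ | ⟨h, -⟩
        · exact h2 h
        · exact pp.not_dvd_one (hco ▸ Nat.dvd_gcd h1 h)
      · rcases hB with ⟨h, -⟩ | ⟨-, h⟩
        · exact pp.not_dvd_one (hco ▸ Nat.dvd_gcd h h1)
        · exact h2 h
    rw [if_pos hB]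
    have hps : p ∈ s := mem_filter.2 ⟨hp, hB⟩
    refine if_congr ?_ rfl (if_neg hB)
    rw [hlin p (mem_union_left _ hps) n]
    simp only [hfc, hfd, if_neg (hsG p hps)]
    by_cases hpu : p ∣ u
    · simp only [if_pos hpu]
      refine ⟨fun h => ?_, fun h => Or.inl ⟨hpu, fun hb => hB (Or.inl ⟨hpu, hb⟩), h⟩⟩
      rcases h with ⟨-, -, h⟩ | ⟨h, -⟩
      · exact h
      · exact absurd (hco ▸ Nat.dvd_gcd hpu h) pp.not_dvd_one
    · have hpv := (pp.dvd_mul.1 hpuv).resolve_left hpu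
      simp only [if_neg hpu]
      rw [show -(B' : ℤ) * n + A' * u = A' * u - B' * n by ring]
      exact ⟨fun h => (h.resolve_left fun h' => hpu h'.1).2.2,
        fun h => Or.inr ⟨hpv, fun hb => hB (Or.inr ⟨hpv, hb⟩), h⟩⟩
  have hgp : ∀ n : ℤ, gPart A B A' B' q r n
      = ∑ T ∈ G0.powerset, if ((∏ p ∈ T, p : ℕ) : ℤ) ∣ c * n + d then w T else 0 := by
    intro n
    have h1 : gPart A B A' B' q r n
        = ∏ p ∈ G0, (1 + if (p : ℤ) ∣ D2 A B A' B' q r n then 1 / ((p : ℝ) - 1) else 0) := by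
      rw [gPart, ← hu, ← hv, ← filter_filter, ← hG0, prod_filter]
      refine prod_congr rfl fun p hp => ?_
      have : (p : ℝ) - 1 ≠ 0 := by
        have : (2 : ℝ) ≤ p := by exact_mod_cast (hGp p hp).two_le
        linarith
      split_ifs
      · field_simp; ring
      · ring
    rw [h1, prod_one_add]
    refine sum_congr rfl fun T hT => ?_
    rw [hw]
    by_cases hall' : ∀ p ∈ T, (p : ℤ) ∣ D2 A B A' B' q r n
    · rw [if_pos ((hmod T (mem_powerset.1 hT) n).1 hall')]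
      exact prod_congr rfl fun p hp => if_pos (hall' p hp)
    · rw [if_neg fun h => hall' ((hmod T (mem_powerset.1 hT) n).2 h)]
      push Not at hall'
      obtain ⟨p, hp, hp'⟩ := hall'
      exact prod_eq_zero hp (if_neg hp')
  -- sizes
  set R := ∏ p ∈ s, (p : ℝ) / ((p : ℝ) - 1) with hR
  have hR0 : 0 ≤ R := prod_nonneg fun p hp => by linarith [ratio_pos (hsp p hp)]
  have hpw : ∀ m : ℕ, 0 < m → (m : ℝ) ≤ η ^ E →
      (m.divisors.card : ℝ) ≤ Cd * η ^ (1 / 16 : ℝ) := fun m hm hm' => by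
    refine (hCd m hm).trans (mul_le_mul_of_nonneg_left ?_ (by linarith))
    refine (Real.rpow_le_rpow (Nat.cast_nonneg m) hm' hθ.le).trans ?_
    rw [← Real.rpow_mul hη0.le]
    exact Real.rpow_le_rpow_of_exponent_le hη hθE
  have hRle : R ≤ Cd * η ^ (1 / 16 : ℝ) :=
    ((prod_ratio_le_Ph huv (filter_subset _ _)).trans (Ph_le_card_divisors _ huv)).trans
      (hpw _ huv huvE)
  have h2s : (2 : ℝ) ^ s.card ≤ Cd * η ^ (1 / 16 : ℝ) := by
    refine le_trans ?_ (hpw _ huv huvE)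
    exact_mod_cast (Nat.pow_le_pow_right (by norm_num) (card_le_card (filter_subset _ _))).trans
      (two_pow_omega_le_divisors _ huv)
  set mm : Finset ℕ → ℕ := fun T => ∏ p ∈ T, p with hmm
  have hw' : ∀ T ∈ G0.powerset, 0 ≤ w T ∧ w T ≤ Cp * (mm T : ℝ) ^ (-(3 / 4) : ℝ) := by
    intro T hT
    have hTp : ∀ p ∈ T, p.Prime := fun p hp => hGp p (mem_powerset.1 hT hp)
    have hm : 0 < mm T := prod_pos fun p hp => (hTp p hp).pos
    have hmR : (0 : ℝ) < mm T := by exact_mod_cast hm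
    have he : w T = Ph (mm T) / (mm T : ℝ) := by
      rw [Ph_eq_prod _ hm, Nat.primeFactors_prod hTp, hw, hmm]
      push_cast
      rw [← prod_div_distrib]
      refine prod_congr rfl fun p hp => ?_
      have : (p : ℝ) ≠ 0 := by exact_mod_cast (hTp p hp).ne_zero
      field_simp
    have h := hCp _ hm
    rw [pow_one] at h
    refine ⟨by rw [he]; exact div_nonneg (Ph_nonneg _) hmR.le, ?_⟩
    rw [he, div_le_iff₀ hmR, mul_assoc, ← Real.rpow_add_one hmR.ne']
    norm_num at h ⊢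
    exact h
  have hinj : Set.InjOn mm ↑G0.powerset := fun T hT T' hT' h => by
    simp only [coe_powerset, Set.mem_preimage, Set.mem_powerset_iff, coe_subset] at hT hT'
    rw [← Nat.primeFactors_prod (s := T) fun p hp => hGp p (hT hp),
      ← Nat.primeFactors_prod (s := T') fun p hp => hGp p (hT' hp)]
    exact congrArg Nat.primeFactors h
  have hsum32 : ∀ Z : Finset (Finset ℕ), Z ⊆ G0.powerset →
      ∑ T ∈ Z, (mm T : ℝ) ^ (-(3 / 2) : ℝ) ≤ sumThreeHalf := fun Z hZ => by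
    rw [← sum_image (f := fun m : ℕ => (m : ℝ) ^ (-(3 / 2) : ℝ)) (fun a ha b hb h => hinj
      (mem_coe.2 (hZ ha)) (mem_coe.2 (hZ hb)) h)]
    refine le_trans (le_of_eq (sum_congr rfl fun m _ => ?_)) (sum_threeHalf_le _)
    rw [Real.rpow_neg (Nat.cast_nonneg m), one_div]
  set sm := G0.powerset.filter (fun T => (mm T : ℝ) ≤ η) with hsm
  set bg := G0.powerset.filter (fun T => ¬ (mm T : ℝ) ≤ η) with hbg
  have hW : ∀ n, W2 A B A' B' q r n
      = ∑ T ∈ G0.powerset, if (mm T : ℤ) ∣ c * n + d then w T * primeFactor s (c * n + d) else 0 := by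
    intro n
    rw [W2, ← hu, ← hv, ← hU, hkill, hgp, mul_sum]
    exact sum_congr rfl fun T _ => by split_ifs <;> ring
  rw [sum_congr rfl fun n _ => hW n, sum_comm,
    ← sum_filter_add_sum_filter_not G0.powerset (fun T => (mm T : ℝ) ≤ η), ← hsm, ← hbg]
  have hpf : ∀ x, 0 ≤ primeFactor s x := fun x => primeFactor_nonneg s x fun p hp => (hsp p hp).two_le
  -- moduli inside the window
  have hA : ∑ T ∈ sm, ∑ n ∈ N, (if (mm T : ℤ) ∣ c * n + d then w T * primeFactor s (c * n + d) else 0)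
      ≤ (2 * Cp * sumThreeHalf + Cd ^ 2 * Cp * sumThreeHalf) * η := by
    have hle : ∀ T ∈ sm, ∑ n ∈ N,
        (if (mm T : ℤ) ∣ c * n + d then w T * primeFactor s (c * n + d) else 0)
        ≤ (2 * Cp * η + Cd ^ 2 * Cp * η) * (mm T : ℝ) ^ (-(3 / 2) : ℝ) := by
      intro T hT
      obtain ⟨hT', hTη⟩ := mem_filter.1 hT
      obtain ⟨hw0, hw1⟩ := hw' T hT'
      have hTp : ∀ p ∈ T, p.Prime := fun p hp => hGp p (mem_powerset.1 hT' hp)
      have hm : 0 < mm T := prod_pos fun p hp => (hTp p hp).pos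
      have hmR : (0 : ℝ) < mm T := by exact_mod_cast hm
      have hcopc : IsCoprime c (mm T : ℤ) := by
        rw [hmm]
        push_cast
        exact IsCoprime.prod_right fun p hp => ((Int.prime_iff_natAbs_prime.2 (by
          simpa using hTp p hp)).coprime_iff_not_dvd.2
            (hcne p (mem_union_right _ (mem_powerset.1 hT' hp)))).symm
      have hsv := sieve_lin γ η q r (mm T) c d s hη0 hm hcopc fun p hp =>
        ⟨hsp p hp, hcne p (mem_union_left _ hp), fun h => by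
          obtain ⟨p', hp', hd'⟩ := ((hsp p hp).prime.dvd_finsetProd_iff _).1 h
          exact hsG p hp (((Nat.prime_dvd_prime_iff_eq (hsp p hp) (hTp p' hp')).1 hd') ▸
            mem_powerset.1 hT' hp')⟩
      have h1 : ∑ n ∈ N, (if (mm T : ℤ) ∣ c * n + d then w T * primeFactor s (c * n + d) else 0)
          ≤ w T * (2 * η / mm T + 2 ^ s.card * R) := by
        refine le_trans ?_ (mul_le_mul_of_nonneg_left hsv hw0)
        rw [mul_sum, sum_filter (p := fun n : ℤ => (mm T : ℤ) ∣ c * n + d)]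
        refine (sum_le_sum_of_subset_of_nonneg (filter_subset _ _) fun n _ _ => ?_)
        split_ifs
        · exact mul_nonneg hw0 (hpf _)
        · exact le_rfl
      refine h1.trans ?_
      have e1 : (2 : ℝ) ^ s.card * R ≤ Cd ^ 2 * η ^ (1 / 8 : ℝ) := by
        refine (mul_le_mul h2s hRle hR0 (by positivity)).trans (le_of_eq ?_)
        rw [show (1 / 8 : ℝ) = 1 / 16 + 1 / 16 by norm_num, Real.rpow_add hη0]; ring
      have e2 : (mm T : ℝ) ^ (-(3 / 4) : ℝ) * (η / mm T) ≤ η * (mm T : ℝ) ^ (-(3 / 2) : ℝ) := by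
        rw [mul_div_assoc', mul_comm, mul_div_assoc, ← Real.rpow_sub_one hmR.ne']
        exact mul_le_mul_of_nonneg_left (Real.rpow_le_rpow_of_exponent_le
          (by exact_mod_cast hm) (by norm_num)) hη0.le
      have e3 : (mm T : ℝ) ^ (-(3 / 4) : ℝ) * η ^ (1 / 8 : ℝ)
          ≤ η * (mm T : ℝ) ^ (-(3 / 2) : ℝ) := by
        rw [show (-(3 / 4) : ℝ) = 3 / 4 + -(3 / 2) by norm_num, Real.rpow_add hmR]
        calc (mm T : ℝ) ^ (3 / 4 : ℝ) * (mm T : ℝ) ^ (-(3 / 2) : ℝ) * η ^ (1 / 8 : ℝ)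
            ≤ η ^ (3 / 4 : ℝ) * (mm T : ℝ) ^ (-(3 / 2) : ℝ) * η ^ (1 / 8 : ℝ) := by gcongr
          _ = η ^ (3 / 4 + 1 / 8 : ℝ) * (mm T : ℝ) ^ (-(3 / 2) : ℝ) := by
              rw [Real.rpow_add hη0]; ring
          _ ≤ η ^ (1 : ℝ) * (mm T : ℝ) ^ (-(3 / 2) : ℝ) := by
              gcongr
              norm_num
          _ = _ := by rw [Real.rpow_one]
      calc w T * (2 * η / mm T + 2 ^ s.card * R)
          ≤ Cp * (mm T : ℝ) ^ (-(3 / 4) : ℝ) * (2 * (η / mm T) + Cd ^ 2 * η ^ (1 / 8 : ℝ)) :=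
            mul_le_mul hw1 (by rw [mul_div_assoc]; linarith) (by positivity) (by positivity)
        _ = 2 * Cp * ((mm T : ℝ) ^ (-(3 / 4) : ℝ) * (η / mm T))
            + Cd ^ 2 * Cp * ((mm T : ℝ) ^ (-(3 / 4) : ℝ) * η ^ (1 / 8 : ℝ)) := by ring
        _ ≤ 2 * Cp * (η * (mm T : ℝ) ^ (-(3 / 2) : ℝ))
            + Cd ^ 2 * Cp * (η * (mm T : ℝ) ^ (-(3 / 2) : ℝ)) := by gcongr
        _ = _ := by ring
    refine (sum_le_sum hle).trans ?_
    rw [← mul_sum]
    refine (mul_le_mul_of_nonneg_left (hsum32 sm (filter_subset _ _)) (by positivity)).trans ?_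
    exact le_of_eq (by ring)
  -- moduli beyond the window
  have hB2 : ∑ T ∈ bg, ∑ n ∈ N, (if (mm T : ℤ) ∣ c * n + d then w T * primeFactor s (c * n + d) else 0)
      ≤ 3 * Cd ^ 2 * Cp * η := by
    rw [sum_comm]
    have hNc : (N.card : ℝ) ≤ 3 * η := by
      have h := card_class γ η q r 1 0 1 hη0 one_pos isCoprime_one_left
      simp at h
      have h2 : (N.card : ℝ) ≤ (nWin γ η q r).card := by
        exact_mod_cast Finset.card_filter_le _ _
      linarith [(abs_le.1 h).2]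
    refine (sum_le_card_nsmul _ _ (Cd ^ 2 * Cp * η ^ (-(5 / 8) : ℝ)) fun n hn => ?_).trans ?_
    · obtain ⟨hnw, hne⟩ := mem_filter.1 hn
      rw [← sum_filter]
      set Z := bg.filter (fun T => (mm T : ℤ) ∣ c * n + d) with hZ
      have hZc : (Z.card : ℝ) ≤ Cd * η ^ (1 / 16 : ℝ) := by
        refine le_trans ?_ (hpw _ (Int.natAbs_pos.2 hne) ?_)
        · have : (Z.image mm).card ≤ (D2 A B A' B' q r n).natAbs.divisors.card := by
            refine card_le_card fun m hm => ?_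
            obtain ⟨T, hT, rfl⟩ := mem_image.1 hm
            obtain ⟨hT1, hT2⟩ := mem_filter.1 hT
            have hTG := mem_powerset.1 (mem_filter.1 hT1).1
            refine Nat.mem_divisors.2 ⟨?_, Int.natAbs_ne_zero.2 hne⟩
            exact Finset.prod_primes_dvd _ (fun p hp => (hGp p (hTG hp)).prime) fun p hp =>
              Int.natCast_dvd.1 ((hmod T hTG n).2 hT2 p hp)
          rw [card_image_of_injOn (hinj.mono (coe_subset.2 ((filter_subset _ _).trans
            (filter_subset _ _))))] at this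
          exact_mod_cast this
        · rw [Nat.cast_natAbs, Int.cast_abs]; exact hDE n hnw
      refine (sum_le_card_nsmul _ _ (Cp * η ^ (-(3 / 4) : ℝ) * (Cd * η ^ (1 / 16 : ℝ)))
        fun T hT => ?_).trans ?_
      · obtain ⟨hT1, -⟩ := mem_filter.1 hT
        obtain ⟨hT', hTη⟩ := mem_filter.1 hT1
        refine mul_le_mul ((hw' T hT').2.trans (mul_le_mul_of_nonneg_left ?_ (by linarith)))
          ((primeFactor_le s _ fun p hp => (hsp p hp).two_le).trans hRle) (hpf _) (by positivity)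
        exact Real.rpow_le_rpow_of_nonpos hη0 (le_of_not_ge hTη) (by norm_num)
      · rw [nsmul_eq_mul]
        refine (mul_le_mul_of_nonneg_right hZc (by positivity)).trans (le_of_eq ?_)
        rw [show (-(5 / 8) : ℝ) = 1 / 16 + -(3 / 4) + 1 / 16 by norm_num, Real.rpow_add hη0,
          Real.rpow_add hη0]
        ring
    · rw [nsmul_eq_mul]
      calc (N.card : ℝ) * (Cd ^ 2 * Cp * η ^ (-(5 / 8) : ℝ))
          ≤ 3 * η * (Cd ^ 2 * Cp * 1) :=
            mul_le_mul hNc (mul_le_mul_of_nonneg_left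
              (Real.rpow_le_one_of_one_le_of_nonpos hη (by norm_num)) (by positivity))
              (by positivity) (by positivity)
        _ = _ := by ring
  refine (add_le_add hA hB2).trans_eq ?_
  ring

end Vale.Agent.P028L
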