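import Vale.Agent.P028.Overlap
import Vale.Agent.P028.NSum

/-! P028L module OVERLAP2: the overlap of two denominators carrying different exclusion rationals. -/

namespace Vale.Agent.P028L

open Finset MeasureTheory
open Vale.Agent.P028
open Vale.Agent.P028.Overlap

/-- The joint determinant of a coincidence for the exclusion rationals `A/B` and `A'/B'`. -/
def D2 (A : ℤ) (B : ℕ) (A' : ℤ) (B' : ℕ) (q r : ℕ) (n : ℤ) : ℤ :=
  (B : ℤ) * B' * n + A * B' * (vv q r : ℤ) - A' * B * (uu q r : ℤ)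

/-- The local factor at a prime of `u v`: zero if one of the two exclusions removes the coincidence. -/
noncomputable def killF (A : ℤ) (B : ℕ) (A' : ℤ) (B' : ℕ) (q r : ℕ) (n : ℤ) (p : ℕ) : ℝ :=
  if (p ∣ uu q r ∧ ¬ p ∣ B ∧ (p : ℤ) ∣ (B : ℤ) * n + A * (vv q r : ℤ)) ∨
      (p ∣ vv q r ∧ ¬ p ∣ B' ∧ (p : ℤ) ∣ A' * (uu q r : ℤ) - (B' : ℤ) * n)
  then 0 else if (p ∣ uu q r ∧ p ∣ B) ∨ (p ∣ vv q r ∧ p ∣ B') then 1 else (p : ℝ) / ((p : ℝ) - 1)

/-- The part of the factor coming from the common divisor. -/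
noncomputable def gPart (A : ℤ) (B : ℕ) (A' : ℤ) (B' : ℕ) (q r : ℕ) (n : ℤ) : ℝ :=
  ∏ p ∈ (Nat.gcd q r).primeFactors.filter (fun p => ¬ p ∣ uu q r * vv q r * (B * B') ∧
      (p : ℤ) ∣ D2 A B A' B' q r n), (p : ℝ) / ((p : ℝ) - 1)

/-- The local factor attached to the coincidence `n`. -/
noncomputable def W2 (A : ℤ) (B : ℕ) (A' : ℤ) (B' : ℕ) (q r : ℕ) (n : ℤ) : ℝ :=
  (∏ p ∈ (uu q r * vv q r).primeFactors, killF A B A' B' q r n p) * gPart A B A' B' q r n

/-- The arithmetic of one coincidence. -/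
lemma sum_coinc2 (A A' : ℤ) (B B' q r : ℕ) (hq : 0 < q) (hr : 0 < r) (n a0 b0 : ℤ)
    (h : (vv q r : ℤ) * a0 - (uu q r : ℤ) * b0 = n) :
    ∑ t ∈ range (Nat.gcd q r),
        wt A B q (a0 + (uu q r : ℤ) * t) * wt A' B' r (b0 + (vv q r : ℤ) * t)
      ≤ (Nat.gcd q r : ℝ) * (th q * th r) * W2 A B A' B' q r n := by
  set u := uu q r with hu
  set v := vv q r with hv
  set g := Nat.gcd q r with hg
  have hg0 : 0 < g := Nat.gcd_pos_of_pos_left _ hq
  have hqu : g * u = q := Nat.mul_div_cancel' (Nat.gcd_dvd_left q r)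
  have hrv : g * v = r := Nat.mul_div_cancel' (Nat.gcd_dvd_right q r)
  have hco : Nat.Coprime u v := Nat.coprime_div_gcd_div_gcd hg0
  set D := D2 A B A' B' q r n with hD
  set X : ℤ → ℤ := fun t => (B : ℤ) * (a0 + u * t) + A with hX
  set Y : ℤ → ℤ := fun t => (B' : ℤ) * (b0 + v * t) + A' with hY
  have hXY : ∀ t, (B' : ℤ) * v * X t - (B : ℤ) * u * Y t = D := fun t => by
    rw [hD, D2, ← hu, ← hv, ← h, hX, hY]; ring
  set P := (q * r).primeFactors with hP
  have hqr : q * r ≠ 0 := (Nat.mul_pos hq hr).ne'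
  have hPp : ∀ p ∈ P, p.Prime := fun p hp => Nat.prime_of_mem_primeFactors hp
  set f : ℕ → ℤ → ℝ := fun p t =>
    (if p ∣ q then lf B p (X t) else 1) * (if p ∣ r then lf B' p (Y t) else 1) with hf
  have hX' : ∀ t, X t = ((B : ℤ) * u) * t + ((B : ℤ) * a0 + A) := fun t => by rw [hX]; ring
  have hY' : ∀ t, Y t = ((B' : ℤ) * v) * t + ((B' : ℤ) * b0 + A') := fun t => by rw [hY]; ring
  have hprod : ∀ t : ℕ,
      wt A B q (a0 + u * t) * wt A' B' r (b0 + v * t) = ∏ p ∈ P, f p t := fun t => by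
    have e : ∀ m, m ∣ q * r → P.filter (· ∣ m) = m.primeFactors := fun m hm => by
      ext p
      simp only [hP, mem_filter, Nat.mem_primeFactors]
      exact ⟨fun h => ⟨h.1.1, h.2, fun e => hqr (zero_dvd_iff.1 (e ▸ hm))⟩,
        fun h => ⟨⟨h.1, h.2.1.trans hm, hqr⟩, h.2.1⟩⟩
    simp only [hf, prod_mul_distrib, ← prod_filter, e q (dvd_mul_right q r),
      e r (dvd_mul_left r q), wt_eq, hX, hY]
  have hper : ∀ p ∈ P, Function.Periodic (f p) (p : ℤ) := fun p _ t => by
    have hx := periodic_lf B p ((B : ℤ) * u) ((B : ℤ) * a0 + A) t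
    have hy := periodic_lf B' p ((B' : ℤ) * v) ((B' : ℤ) * b0 + A') t
    simp only at hx hy
    simp only [hf, hX', hY', hx, hy]
  have hdvd : ∀ p : ℕ, p.Prime → (p ∣ q ↔ p ∣ g ∨ p ∣ u) ∧ (p ∣ r ↔ p ∣ g ∨ p ∣ v) :=
    fun p hp => ⟨by rw [← hqu, hp.dvd_mul], by rw [← hrv, hp.dvd_mul]⟩
  have hconst : ∀ (B p : ℕ) (c d : ℤ), (p : ℤ) ∣ c → ∀ t : ℤ, lf B p (c * t + d) = lf B p d :=
    fun B p c d hc t => by
      have : (p : ℤ) ∣ c * t + d ↔ (p : ℤ) ∣ d := dvd_add_right (hc.mul_right t)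
      simp only [lf, nd, this]
  have hcst : ∀ p ∈ P, ¬ p ∣ g → ∀ t, f p t = f p 0 := fun p hp hpg t => by
    obtain ⟨d1, d2⟩ := hdvd p (hPp p hp)
    simp only [hf, hX', hY']
    congr 1
    · split_ifs with hpq
      · have hc : (p : ℤ) ∣ (B : ℤ) * u :=
          (Int.natCast_dvd_natCast.2 ((d1.1 hpq).resolve_left hpg)).mul_left _
        rw [hconst _ p _ _ hc t, hconst _ p _ _ hc 0]
      · rfl
    · split_ifs with hpr
      · have hc : (p : ℤ) ∣ (B' : ℤ) * v :=
          (Int.natCast_dvd_natCast.2 ((d2.1 hpr).resolve_left hpg)).mul_left _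
        rw [hconst _ p _ _ hc t, hconst _ p _ _ hc 0]
      · rfl
  rw [sum_congr rfl fun t _ => hprod t, sum_local P f g hPp hper hcst, mul_assoc]
  refine mul_le_mul_of_nonneg_left ?_ (Nat.cast_nonneg g)
  -- the local factors of the target
  set T : ℕ → ℝ := fun p =>
    (if p ∣ q then 1 - 1 / (p : ℝ) else 1) * (if p ∣ r then 1 - 1 / (p : ℝ) else 1) *
    (if p ∣ u * v then killF A B A' B' q r n p else 1) *
    (if p ∣ g ∧ (¬ p ∣ u * v * (B * B') ∧ (p : ℤ) ∣ D) then (p : ℝ) / ((p : ℝ) - 1) else 1) with hT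
  have hle : ∀ p ∈ P, (∑ a ∈ range p, f p a) / (p : ℝ) ≤ T p := by
    intro p hp
    have pp := hPp p hp
    obtain ⟨d1, d2⟩ := hdvd p pp
    have hp2 : (2 : ℝ) ≤ p := by exact_mod_cast pp.two_le
    have hp0 : (p : ℝ) ≠ 0 := by linarith
    have hp1 : (0 : ℝ) < (p : ℝ) - 1 := by linarith
    obtain ⟨hm0, hm1⟩ := one_sub_inv_mem pp
    have hpi := Nat.prime_iff_prime_int.1 pp
    have hinv : (1 - 1 / (p : ℝ)) * ((p : ℝ) / ((p : ℝ) - 1)) = 1 := by field_simp
    have hcast : ∀ m : ℕ, (p : ℤ) ∣ (m : ℤ) ↔ p ∣ m := fun m => Int.natCast_dvd_natCast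
    have meanX : ¬ p ∣ u → (∑ a ∈ range p, lf B p (X a)) / (p : ℝ) = 1 - 1 / p := fun hpu => by
      simp only [hX']
      exact mean_lf pp (fun hB hd => (hpi.dvd_or_dvd hd).elim (fun h' => hB ((hcast _).1 h'))
        (fun h' => hpu ((hcast _).1 h'))) _
    have meanY : ¬ p ∣ v → (∑ a ∈ range p, lf B' p (Y a)) / (p : ℝ) = 1 - 1 / p := fun hpv => by
      simp only [hY']
      exact mean_lf pp (fun hB hd => (hpi.dvd_or_dvd hd).elim (fun h' => hB ((hcast _).1 h'))
        (fun h' => hpv ((hcast _).1 h'))) _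
    by_cases hpu : p ∣ u
    · have hpv : ¬ p ∣ v := fun hv' => pp.not_dvd_one (hco ▸ Nat.dvd_gcd hpu hv')
      have hpq : p ∣ q := d1.2 (Or.inr hpu)
      set c := if p ∣ B then 1 - 1 / (p : ℝ) else nd p ((B : ℤ) * n + A * v) with hc
      have hXc : ∀ t : ℤ, lf B p (X t) = c := fun t => by
        have hiff : (p : ℤ) ∣ X t ↔ (p : ℤ) ∣ (B : ℤ) * n + A * v := by
          have e : (B : ℤ) * n + A * v = (v : ℤ) * X t - (B : ℤ) * (u * (b0 + v * t)) := by
            rw [← h, hX]; ring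
          rw [e, dvd_sub_left (((hcast u).2 hpu).mul_right _ |>.mul_left _)]
          exact ⟨fun h' => h'.mul_left _, fun h' => (hpi.dvd_or_dvd h').resolve_left
            fun h'' => hpv ((hcast v).1 h'')⟩
        simp only [lf, hc, nd, hiff]
      have hno : ¬ (p ∣ g ∧ (¬ p ∣ u * v * (B * B') ∧ (p : ℤ) ∣ D)) :=
        fun hh' => hh'.2.1 (dvd_mul_of_dvd_left (hpu.mul_right v) _)
      set fy := if p ∣ r then 1 - 1 / (p : ℝ) else 1 with hfy
      have hfy0 : 0 ≤ fy := by rw [hfy]; split_ifs <;> linarith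
      have hm : (∑ a ∈ range p, f p a) / (p : ℝ) = c * fy := by
        simp only [hf, if_pos hpq, hXc, ← mul_sum, mul_div_assoc]
        congr 1
        rw [hfy]
        split_ifs
        · exact meanY hpv
        · rw [sum_const, card_range, nsmul_eq_mul, mul_one, div_self hp0]
      have hcle : c ≤ (1 - 1 / (p : ℝ)) * killF A B A' B' q r n p := by
        unfold killF
        rw [← hu, ← hv]
        split_ifs with hk hk'
        · rcases hk with ⟨-, hB, hd⟩ | ⟨h', -⟩
          · rw [hc, if_neg hB, nd, if_pos hd, mul_zero]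
          · exact absurd h' hpv
        · rcases hk' with ⟨-, hB⟩ | ⟨h', -⟩
          · rw [hc, if_pos hB, mul_one]
          · exact absurd h' hpv
        · rw [hinv, hc]
          split_ifs
          · exact hm1
          · exact nd_le_one _ _
      rw [hm]
      simp only [hT, if_pos hpq, if_pos (hpu.mul_right v), if_neg hno, mul_one, ← hfy]
      calc c * fy ≤ (1 - 1 / (p : ℝ)) * killF A B A' B' q r n p * fy :=
            mul_le_mul_of_nonneg_right hcle hfy0
        _ = _ := by ring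
    by_cases hpv : p ∣ v
    · have hpr : p ∣ r := d2.2 (Or.inr hpv)
      set c := if p ∣ B' then 1 - 1 / (p : ℝ) else nd p (A' * u - (B' : ℤ) * n) with hc
      have hYc : ∀ t : ℤ, lf B' p (Y t) = c := fun t => by
        have hiff : (p : ℤ) ∣ Y t ↔ (p : ℤ) ∣ A' * u - (B' : ℤ) * n := by
          have e : A' * u - (B' : ℤ) * n = (u : ℤ) * Y t - (B' : ℤ) * (v * (a0 + u * t)) := by
            rw [← h, hY]; ring
          rw [e, dvd_sub_left (((hcast v).2 hpv).mul_right _ |>.mul_left _)]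
          exact ⟨fun h' => h'.mul_left _, fun h' => (hpi.dvd_or_dvd h').resolve_left
            fun h'' => hpu ((hcast u).1 h'')⟩
        simp only [lf, hc, nd, hiff]
      have hno : ¬ (p ∣ g ∧ (¬ p ∣ u * v * (B * B') ∧ (p : ℤ) ∣ D)) :=
        fun hh' => hh'.2.1 (dvd_mul_of_dvd_left (hpv.mul_left u) _)
      set fx := if p ∣ q then 1 - 1 / (p : ℝ) else 1 with hfx
      have hfx0 : 0 ≤ fx := by rw [hfx]; split_ifs <;> linarith
      have hm : (∑ a ∈ range p, f p a) / (p : ℝ) = fx * c := by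
        simp only [hf, if_pos hpr, hYc, ← sum_mul, mul_div_right_comm]
        congr 1
        rw [hfx]
        split_ifs
        · exact meanX hpu
        · rw [sum_const, card_range, nsmul_eq_mul, mul_one, div_self hp0]
      have hcle : c ≤ (1 - 1 / (p : ℝ)) * killF A B A' B' q r n p := by
        unfold killF
        rw [← hu, ← hv]
        split_ifs with hk hk'
        · rcases hk with ⟨h', -⟩ | ⟨-, hB, hd⟩
          · exact absurd h' hpu
          · rw [hc, if_neg hB, nd, if_pos hd, mul_zero]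
        · rcases hk' with ⟨h', -⟩ | ⟨-, hB⟩
          · exact absurd h' hpu
          · rw [hc, if_pos hB, mul_one]
        · rw [hinv, hc]
          split_ifs
          · exact hm1
          · exact nd_le_one _ _
      rw [hm]
      simp only [hT, if_pos hpr, if_pos (hpv.mul_left u), if_neg hno, mul_one, ← hfx]
      calc fx * c ≤ fx * ((1 - 1 / (p : ℝ)) * killF A B A' B' q r n p) :=
            mul_le_mul_of_nonneg_left hcle hfx0
        _ = _ := by ring
    have hpg : p ∣ g := by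
      rcases (pp.dvd_mul).1 (Nat.dvd_of_mem_primeFactors hp) with h' | h'
      · exact (d1.1 h').resolve_right hpu
      · exact (d2.1 h').resolve_right hpv
    have hnuv : ¬ p ∣ u * v := fun hh' => (pp.dvd_mul.1 hh').elim hpu hpv
    simp only [hT, hf, if_pos (d1.2 (Or.inl hpg)), if_pos (d2.2 (Or.inl hpg)), if_neg hnuv, mul_one]
    by_cases hB : p ∣ B
    · have hno : ¬ (p ∣ g ∧ (¬ p ∣ u * v * (B * B') ∧ (p : ℤ) ∣ D)) :=
        fun hh' => hh'.2.1 (dvd_mul_of_dvd_right (hB.mul_right B') _)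
      rw [if_neg hno, mul_one]
      have e : ∀ t : ℤ, lf B p (X t) = 1 - 1 / (p : ℝ) := fun t => if_pos hB
      simp only [e, ← mul_sum, mul_div_assoc, meanY hpv, le_refl]
    by_cases hB' : p ∣ B'
    · have hno : ¬ (p ∣ g ∧ (¬ p ∣ u * v * (B * B') ∧ (p : ℤ) ∣ D)) :=
        fun hh' => hh'.2.1 (dvd_mul_of_dvd_right (hB'.mul_left B) _)
      rw [if_neg hno, mul_one]
      have e : ∀ t : ℤ, lf B' p (Y t) = 1 - 1 / (p : ℝ) := fun t => if_pos hB'
      simp only [e, ← sum_mul, mul_div_right_comm, meanX hpu, le_refl]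
    have hnall : ¬ p ∣ u * v * (B * B') := fun hh' =>
      (pp.dvd_mul.1 hh').elim hnuv fun h' => (pp.dvd_mul.1 h').elim hB hB'
    by_cases hpD : (p : ℤ) ∣ D
    · rw [if_pos ⟨hpg, hnall, hpD⟩, mul_assoc, hinv, mul_one]
      refine le_trans ?_ (meanX hpu).le
      refine div_le_div_of_nonneg_right (sum_le_sum fun a _ => ?_) (by linarith)
      exact mul_le_of_le_one_right (lf_mem pp _).1 (lf_mem pp _).2
    · rw [if_neg (fun hh' => hpD hh'.2.2), mul_one]
      have hle' : ∀ t : ℤ, lf B p (X t) * lf B' p (Y t) ≤ lf B p (X t) + lf B' p (Y t) - 1 := by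
        intro t
        simp only [lf, if_neg hB, if_neg hB', nd]
        split_ifs with a b <;> norm_num
        refine hpD ?_
        rw [← hXY t]
        exact dvd_sub (a.mul_left _) (b.mul_left _)
      refine le_trans (div_le_div_of_nonneg_right (sum_le_sum fun a _ => hle' a) (by linarith)) ?_
      rw [sum_sub_distrib, sum_add_distrib, sub_div, add_div, meanX hpu, meanY hpv, sum_const,
        card_range, nsmul_eq_mul, mul_one, div_self hp0]
      nlinarith [mul_self_nonneg (1 / (p : ℝ))]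
  refine le_trans (Finset.prod_le_prod (fun p hp => ?_) hle) (le_of_eq ?_)
  · exact div_nonneg (sum_nonneg fun a _ => mul_nonneg
      (by split_ifs; exacts [(lf_mem (hPp p hp) _).1, zero_le_one])
      (by split_ifs; exacts [(lf_mem (hPp p hp) _).1, zero_le_one])) (Nat.cast_nonneg p)
  have e : ∀ m, m ∣ q * r → P.filter (· ∣ m) = m.primeFactors := fun m hm => by
    ext p
    simp only [hP, mem_filter, Nat.mem_primeFactors]
    exact ⟨fun h => ⟨h.1.1, h.2, fun e => hqr (zero_dvd_iff.1 (e ▸ hm))⟩,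
      fun h => ⟨⟨h.1, h.2.1.trans hm, hqr⟩, h.2.1⟩⟩
  have huvd : u * v ∣ q * r := Nat.mul_dvd_mul ⟨g, by rw [← hqu, mul_comm]⟩ ⟨g, by rw [← hrv, mul_comm]⟩
  have hgd : g ∣ q * r := (Nat.gcd_dvd_left q r).mul_right r
  simp only [hT, prod_mul_distrib]
  rw [← prod_filter, ← prod_filter, ← prod_filter, ← prod_filter, e q (dvd_mul_right q r),
    e r (dvd_mul_left r q), ← th_prod hq, ← th_prod hr, e _ huvd, mul_assoc, W2, gPart, ← hD,
    ← hu, ← hv, ← hg]
  congr 1
  congr 1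
  refine Finset.prod_congr ?_ fun _ _ => rfl
  rw [← filter_filter, e _ hgd]

/-- The overlap formula for two exclusion rationals. -/
theorem overlap2_le (γ : ℝ) (ψ : ℕ → ℝ) (A A' : ℤ) (B B' q r : ℕ)
    (hq : 0 < q) (hr : 0 < r)
    (hq0 : 0 < ψ q) (hq1 : ψ q ≤ 1 / 2) (hr0 : 0 < ψ r) (_hr1 : ψ r ≤ 1 / 2) :
    ∫ x in Set.Ico (0 : ℝ) 1, fq γ ψ A B q x * fq γ ψ A' B' r x
      ≤ 4 * mu ψ q * mu ψ r / etaP ψ q r
          * ∑ n ∈ nWin γ (etaP ψ q r) q r, W2 A B A' B' q r n := by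
  classical
  set g := Nat.gcd q r with hg
  set u := uu q r with hu
  set v := vv q r with hv
  have hg0 : 0 < g := Nat.gcd_pos_of_pos_left _ hq
  have hqu : g * u = q := Nat.mul_div_cancel' (Nat.gcd_dvd_left q r)
  have hrv : g * v = r := Nat.mul_div_cancel' (Nat.gcd_dvd_right q r)
  have hu0 : 0 < u := Nat.pos_of_ne_zero fun e => by rw [e, mul_zero] at hqu; omega
  have hv0 : 0 < v := Nat.pos_of_ne_zero fun e => by rw [e, mul_zero] at hrv; omega
  have hco : Nat.Coprime u v := Nat.coprime_div_gcd_div_gcd hg0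
  have hqR : (q : ℝ) = g * u := by exact_mod_cast hqu.symm
  have hrR : (r : ℝ) = g * v := by exact_mod_cast hrv.symm
  have hgR : (0 : ℝ) < g := by exact_mod_cast hg0
  have huR : (0 : ℝ) < u := by exact_mod_cast hu0
  have hvR : (0 : ℝ) < v := by exact_mod_cast hv0
  set η := etaP ψ q r with hη
  have hηdef : η = v * ψ q + u * ψ r := rfl
  have hη0 : 0 < η := by rw [hηdef]; positivity
  rw [int_mul_eq γ ψ A A' B B' q r hq hq0.le hq1]
  set c := 4 * ψ q * ψ r / (g * η) with hc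
  have hc0 : 0 ≤ c := by positivity
  set S : ℕ → Finset ℤ := fun a =>
    (Finset.Icc ⌊(r : ℝ) * (((a : ℝ) + γ - ψ q) / q) - γ - ψ r⌋
      ⌈(r : ℝ) * (((a : ℝ) + γ + ψ q) / q) - γ + ψ r⌉).filter
      (fun b : ℤ => |(((v : ℤ) * a - (u : ℤ) * b : ℤ) : ℝ) + γ * (hh q r : ℝ)| < η) with hS
  have hstep : ∀ a ∈ range q, wt A B q a *
      ∫ x in (((a : ℝ) + γ - ψ q) / q)..(((a : ℝ) + γ + ψ q) / q), fq γ ψ A' B' r x
      ≤ c * ∑ b ∈ S a, wt A B q a * wt A' B' r b := by
    intro a _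
    rw [mul_sum _ _ c, int_scale γ ψ A' B' r hr]
    have hle : (r : ℝ) * (((a : ℝ) + γ - ψ q) / q) - γ
        ≤ (r : ℝ) * (((a : ℝ) + γ + ψ q) / q) - γ := by gcongr; linarith
    have h := int_bump_le (wt_mem A' B' r) hr0.le hle (S a) fun k k1 k2 => by
      refine mem_filter.2 ⟨Finset.mem_Icc.2 ⟨?_, ?_⟩, ?_⟩
      · exact Int.cast_le.1 ((Int.floor_le _).trans k1.le)
      · exact Int.cast_le.1 (k2.le.trans (Int.le_ceil _))
      · rw [hqR, hrR] at k1 k2
        have e : ∀ z : ℝ, (g : ℝ) * v * (z / (g * u)) * u = v * z := fun z => by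
          field_simp
        have k1' := mul_lt_mul_of_pos_right k1 huR
        have k2' := mul_lt_mul_of_pos_right k2 huR
        simp only [sub_mul, add_mul, e] at k1' k2'
        simp only [hh, ← hu, ← hv, hηdef]
        push_cast
        rw [abs_lt]
        constructor <;> linarith
    have hmin : (r : ℝ)⁻¹ * min (2 * ψ r) ((r : ℝ) * (((a : ℝ) + γ + ψ q) / q) - γ
        - ((r : ℝ) * (((a : ℝ) + γ - ψ q) / q) - γ)) ≤ c := by
      rw [show (r : ℝ) * (((a : ℝ) + γ + ψ q) / q) - γ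
          - ((r : ℝ) * (((a : ℝ) + γ - ψ q) / q) - γ) = 2 * ψ q * v / u by
        rw [hqR, hrR]; field_simp; ring, hc, hrR, hηdef]
      rcases le_total (u * ψ r) (v * ψ q) with hcase | hcase
      · calc ((g : ℝ) * v)⁻¹ * min (2 * ψ r) (2 * ψ q * v / u)
            ≤ ((g : ℝ) * v)⁻¹ * (2 * ψ r) := by gcongr; exact min_le_left _ _
          _ ≤ _ := by
            rw [inv_mul_eq_div, div_le_div_iff₀ (by positivity) (by positivity)]
            have := mul_le_mul_of_nonneg_left hcase (by positivity : 0 ≤ 2 * ψ r * g)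
            linarith
      · calc ((g : ℝ) * v)⁻¹ * min (2 * ψ r) (2 * ψ q * v / u)
            ≤ ((g : ℝ) * v)⁻¹ * (2 * ψ q * v / u) := by gcongr; exact min_le_right _ _
          _ = 2 * ψ q / (g * u) := by field_simp
          _ ≤ _ := by
            rw [div_le_div_iff₀ (by positivity) (by positivity)]
            have := mul_le_mul_of_nonneg_left hcase (by positivity : 0 ≤ 2 * ψ q * g)
            linarith
    have hnn : 0 ≤ ∑ b ∈ S a, wt A' B' r b := sum_nonneg fun b _ => (wt_mem A' B' r b).1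
    calc wt A B q a * ((r : ℝ)⁻¹ * _)
        ≤ wt A B q a * ((r : ℝ)⁻¹ * ((∑ b ∈ S a, wt A' B' r b) * _)) :=
          mul_le_mul_of_nonneg_left (mul_le_mul_of_nonneg_left h (by positivity))
            (wt_mem A B q a).1
      _ ≤ wt A B q a * ((∑ b ∈ S a, wt A' B' r b) * c) := by
          refine mul_le_mul_of_nonneg_left ?_ (wt_mem A B q a).1
          rw [mul_left_comm]
          exact mul_le_mul_of_nonneg_left hmin hnn
      _ = _ := by rw [sum_mul, mul_sum]; exact sum_congr rfl fun b _ => by ring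
  refine le_trans (sum_le_sum hstep) ?_
  rw [← mul_sum, sum_sigma' (range q) S (fun a b => wt A B q a * wt A' B' r b)]
  have hmaps : ∀ x ∈ (range q).sigma S, (v : ℤ) * x.1 - (u : ℤ) * x.2 ∈ nWin γ η q r := by
    intro x hx
    obtain ⟨-, hx⟩ := mem_sigma.1 hx
    have h := (mem_filter.1 hx).2
    obtain ⟨h1, h2⟩ := abs_lt.1 h
    refine mem_filter.2 ⟨Finset.mem_Icc.2 ⟨?_, ?_⟩, h⟩
    · rw [Int.ceil_le]; linarith
    · rw [Int.le_floor]; linarith
  rw [← sum_fiberwise_of_maps_to hmaps]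
  have hfib : ∀ n ∈ nWin γ η q r, ∑ x ∈ (range q).sigma S with (v : ℤ) * x.1 - (u : ℤ) * x.2 = n,
      wt A B q x.1 * wt A' B' r x.2 ≤ (g : ℝ) * (th q * th r) * W2 A B A' B' q r n := by
    intro n _
    set F := ((range q).sigma S).filter (fun x => (v : ℤ) * x.1 - (u : ℤ) * x.2 = n) with hF
    obtain ⟨α, β, hαβ⟩ : ∃ α β : ℤ, α * (u : ℤ) + β * (v : ℤ) = 1 := Nat.isCoprime_iff_coprime.2 hco
    set a0 := (β * n) % (u : ℤ) with ha0
    set b0 := -α * n - (v : ℤ) * ((β * n) / (u : ℤ)) with hb0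
    have huI : (u : ℤ) ≠ 0 := by exact_mod_cast hu0.ne'
    have e0 : (v : ℤ) * a0 - (u : ℤ) * b0 = n := by
      rw [ha0, hb0, Int.emod_def]; linear_combination n * hαβ
    have ha0' : 0 ≤ a0 ∧ a0 < u := ⟨Int.emod_nonneg _ huI, Int.emod_lt_of_pos _ (by omega)⟩
    refine le_trans ?_ (sum_coinc2 A A' B B' q r hq hr n a0 b0 e0)
    have hmem : ∀ x ∈ F, ∃ t < g, (x.1 : ℤ) = a0 + u * t ∧ x.2 = b0 + v * t := by
      intro x hx
      obtain ⟨hx1, hx2⟩ := mem_filter.1 hx
      obtain ⟨hxa, -⟩ := mem_sigma.1 hx1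
      rw [mem_range] at hxa
      have hd : (v : ℤ) * ((x.1 : ℤ) - a0) = (u : ℤ) * (x.2 - b0) := by
        linear_combination hx2 - e0
      obtain ⟨t, ht⟩ := (Int.isCoprime_iff_nat_coprime.2 (by simpa using hco)).dvd_of_dvd_mul_left
        (⟨x.2 - b0, hd⟩ : (u : ℤ) ∣ (v : ℤ) * ((x.1 : ℤ) - a0))
      have hb : x.2 - b0 = v * t :=
        mul_left_cancel₀ huI (by rw [← hd, ht]; ring)
      have hlt : (x.1 : ℤ) < g * u := by rw [← Nat.cast_mul, hqu]; exact_mod_cast hxa
      have ht0 : 0 ≤ t := by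
        by_contra hneg
        have := mul_le_mul_of_nonneg_left (show t ≤ -1 by omega) (by omega : (0 : ℤ) ≤ u)
        omega
      have ht1 : t < g := by
        by_contra hbig
        have := mul_le_mul_of_nonneg_left (show (g : ℤ) ≤ t by omega) (by omega : (0 : ℤ) ≤ u)
        rw [mul_comm (g : ℤ)] at hlt
        omega
      exact ⟨t.toNat, by omega, by rw [Int.toNat_of_nonneg ht0]; linarith,
        by rw [Int.toNat_of_nonneg ht0]; linarith⟩
    choose! t ht1 ht2 ht3 using hmem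
    calc ∑ x ∈ F, wt A B q x.1 * wt A' B' r x.2
        = ∑ j ∈ F.image t, wt A B q (a0 + u * j) * wt A' B' r (b0 + v * j) := by
          rw [sum_image fun x hx y hy h => ?_]
          · exact sum_congr rfl fun x hx => by rw [← ht2 x hx, ← ht3 x hx]
          · have h1 : (x.1 : ℤ) = y.1 := by rw [ht2 x hx, ht2 y hy, h]
            exact Sigma.ext (by exact_mod_cast h1) (heq_of_eq (by rw [ht3 x hx, ht3 y hy, h]))
      _ ≤ _ := sum_le_sum_of_subset_of_nonneg
          (fun j hj => by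
            obtain ⟨x, hx, rfl⟩ := mem_image.1 hj
            exact mem_range.2 (ht1 x hx))
          fun j _ _ => mul_nonneg (wt_mem _ _ _ _).1 (wt_mem _ _ _ _).1
  refine (mul_le_mul_of_nonneg_left (sum_le_sum hfib) hc0).trans_eq ?_
  rw [← mul_sum, hc, mu, mu]
  field_simp

end Vale.Agent.P028L
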